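import Vale.Agent.P277.H371.C.Thin
import Vale.Agent.P277.H615.P7c
import Vale.Agent.P277.H615.Regc
import Vale.Agent.P277.H615.T2Fin

/-!
# P277, Theorem T2c: flips of generalized canonical pairs
-/

set_option maxSynthPendingDepth 3

open scoped Manifold ContDiff Topology
open Vale.Agent.P272.K Vale.Agent.P285.H281.FD Vale.Agent.P267.H175 Set Filter

noncomputable section

namespace Vale.Agent.P277.H371.C

open Vale.Agent.P277 H619 H19 H615

section

variable {Y : Type} [TopologicalSpace Y] [T2Space Y] [SecondCountableTopology Y]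
  [ChartedSpace (Cm 4) Y] [IsManifold 𝓘(ℂ, Cm 4) ω Y]

/-- an arbitrary flip whose flipped locus is generically contained in the regular locus -/
theorem surf_step {X Z X' : CSp} {f : X.pt → Z.pt} {f' : X'.pt → Z.pt} {A : Set Z.pt}
    (H : IsSmall X Z f A) (H' : IsSmall X' Z f' A) {W O : Set Y} {v : Y → X.pt}
    {E : Set X.pt} (hM : PMod X W O v E) (hne' : Nonempty (RegT X'))
    (hreg : DimLe X' 1 {x | x ∈ f' ⁻¹' A ∧ ¬ IsReg 4 X' x}) {ρ : ℕ} (hρ : RankX X W v E ρ) :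
    ∃ ρ', RankX X' {y | y ∈ W ∧ f (v y) ∉ A} (H615.tr f H' ∘ v) (f' ⁻¹' (f '' E ∪ A)) ρ' := by
  obtain ⟨y0'⟩ := hne'
  have hM' := pmod_step H H' hM hreg
  have h1 : RankXS X' {y | y ∈ W ∧ f (v y) ∉ A} (H615.tr f H' ∘ v) (f' ⁻¹' (f '' E ∪ A))
      (f' ⁻¹' A) ρ := by
    intro n a b ha hb
    refine hρ n a b (fun i => ?_) fun i => ?_
    · obtain ⟨c, hc, N, h1, h2, h3, h4, h5⟩ := ha i
      exact hc.tr H H' hM y0' h1 h2 h3 h4 h5
    · obtain ⟨c, hc, N, h1, h2, h3, h4, h5⟩ := hb i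
      exact hc.tr H H' hM y0' h1 h2 h3 h4 h5
  have hSan : IsAn X' univ (f' ⁻¹' A) := by
    have h2 : IsAn X' (f' ⁻¹' univ) (f' ⁻¹' A) := IsAn.preimage (fun x => H'.holMap x) H'.an
    simpa using h2
  obtain ⟨k, hk⟩ := stepX_an hM' ⟨y0'⟩ hSan H'.dim (preimage_mono subset_union_right) h1
  exact ⟨_, hk⟩

end

theorem ne_reg {X Z X' : CSp} {f : X.pt → Z.pt} {f' : X'.pt → Z.pt} {A : Set Z.pt}
    {L : Bd X.pt} {L' : Bd X'.pt} (F : IsFlip X Z X' f f' A L L') :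
    Nonempty (RegT X) ∧ Nonempty (RegT X') := by
  have hninj := F.ninj
  rw [Function.Injective] at hninj
  push Not at hninj
  obtain ⟨x₁, x₂, hx₁₂, hne⟩ := hninj
  obtain ⟨x', hx'⟩ := F.small'.surj (f x₁)
  constructor
  · obtain ⟨x, hx⟩ := F.normal.dense.nonempty_iff.2 ⟨x₁⟩
    exact ⟨⟨x, hx⟩⟩
  · obtain ⟨x, hx⟩ := F.normal'.dense.nonempty_iff.2 ⟨x'⟩
    exact ⟨⟨x, hx⟩⟩

/-- the resolution -/
theorem pmod_base {Y : Type} [TopologicalSpace Y] [T2Space Y] [CompactSpace Y]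
    [ChartedSpace (Cm 4) Y] {X : CSp} [Nonempty X.pt] {p : Y → X.pt} {O : Set Y}
    (hp : IsRes Y X p O) : PMod X univ O p ∅ where
  isOpen := isOpen_univ
  cont := hp.cont.continuousOn
  hol y _ e he g hg := hp.holo y e he g hg
  closed := isClosed_empty
  dim := dimLe_empty.mono fun x (hx : x ∈ (∅ : Set X.pt) ∧ _) => hx.1
  maps _ _ h := h
  proper C hC _ := by
    rw [univ_inter]
    exact (hC.preimage hp.cont).isCompact
  sub := subset_univ _
  emb := hp.emb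
  codim := hp.dim
  null e he := by
    have h1 : (univ \ O) ∩ e.source = e.source \ O := by
      ext y; simp [and_comm]
    rw [h1]
    exact hp.null e he

theorem rank_base {Y : Type} [TopologicalSpace Y] [T2Space Y] [SecondCountableTopology Y]
    [ChartedSpace (Cm 4) Y] [IsManifold 𝓘(ℂ, Cm 4) ω Y] {X : CSp} {O : Set Y} {p : Y → X.pt}
    (hM : PMod X univ O p ∅) {ρ : ℕ} (hρ : RankOn Y univ ρ) : RankX X univ p ∅ ρ := by
  intro n a b ha hb
  have key : ∀ a : Fm 4 Y, (∃ c, XF X univ p ∅ a c) → CCF univ a := by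
    rintro a ⟨c, hc⟩
    obtain ⟨N, h1, h2, h3, h4⟩ := hc.supp
    exact hc.ccf hM h1 (disjoint_empty N) h3
  exact hρ n a b (fun i => key _ (ha i)) fun i => key _ (hb i)

/-- **Theorem R∞, for arbitrary singularities of `X 0`.** In an infinite sequence of flips, such
that the flipped loci are generically contained in the regular loci, infinitely many of the flipped
loci have dimension two. -/
theorem rinf_c {Y : Type} [TopologicalSpace Y] [T2Space Y] [CompactSpace Y]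
    [ChartedSpace (Cm 4) Y] [IsManifold 𝓘(ℂ, Cm 4) ω Y] (X Z : ℕ → CSp) (p : Y → (X 0).pt)
    (O : Set Y) (hp : IsRes Y (X 0) p O) (f : ∀ j, (X j).pt → (Z j).pt)
    (f' : ∀ j, (X (j + 1)).pt → (Z j).pt) (A : ∀ j, Set (Z j).pt) (L : ∀ j, Bd (X j).pt)
    (L' : ∀ j, Bd (X (j + 1)).pt)
    (hflip : ∀ j, IsFlip (X j) (Z j) (X (j + 1)) (f j) (f' j) (A j) (L j) (L' j))
    (hreg : ∀ j, DimLe (X (j + 1)) 1 {x | x ∈ f' j ⁻¹' A j ∧ ¬ IsReg 4 (X (j + 1)) x}) :
    ∀ n, ∃ j ≥ n, ¬ DimLe (X (j + 1)) 1 (f' j ⁻¹' A j) := by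
  have : SecondCountableTopology Y := ChartedSpace.secondCountable_of_sigmaCompact (Cm 4) Y
  have h1 : ∀ j, ∃ (W O : Set Y) (v : Y → (X j).pt) (E : Set (X j).pt) (ρ : ℕ),
      PMod (X j) W O v E ∧ RankX (X j) W v E ρ := by
    intro j
    induction j with
    | zero =>
      obtain ⟨ρ, hρ⟩ := stRkCpt stPair Y
      obtain ⟨x0⟩ := (ne_reg (hflip 0)).1
      have : Nonempty (X 0).pt := ⟨x0.1⟩
      have hM := pmod_base hp
      exact ⟨univ, O, p, ∅, ρ, hM, rank_base hM hρ⟩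
    | succ j ih =>
      obtain ⟨W, O, v, E, ρ, hM, hρ⟩ := ih
      have F := hflip j
      obtain ⟨ρ', hρ'⟩ := surf_step F.small F.small' hM (ne_reg F).2 (hreg j) hρ
      exact ⟨_, _, _, _, ρ', pmod_step F.small F.small' hM (hreg j), hρ'⟩
  intro n
  by_contra hcon
  push Not at hcon
  have h2 : ∀ ρ : ℕ, ∀ j ≥ n, ∀ (W O : Set Y) (v : Y → (X j).pt) (E : Set (X j).pt),
      PMod (X j) W O v E → ¬ RankX (X j) W v E ρ := by
    intro ρ
    induction ρ using Nat.strong_induction_on with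
    | _ ρ ih =>
      intro j hj W O v E hM hρ
      have F := hflip j
      obtain ⟨ρ', h3, h4⟩ := thin_step F hM (ne_reg F).1 (ne_reg F).2 (hcon j hj) hρ
      exact ih ρ' (by omega) (j + 1) (by omega) _ _ _ _
        (pmod_step F.small F.small' hM (hreg j)) h4
  obtain ⟨W, O, v, E, ρ, hM, hρ⟩ := h1 n
  exact h2 ρ n le_rfl W O v E hM hρ

/-- **Theorem T2c** -/
theorem stT2c : T2.StT2c := by
  intro Y _ _ _ _ _ χ hχ M hM hnef m hm W X Z r v p P G hR f f' A L hL hflip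
  have hch : ∀ j, ∃ p q : ℕ, 1 ≤ p ∧ 1 ≤ q ∧ IsFlip (X j) (Z j) (X (j + 1)) (f j) (f' j)
      (Amin (f j)) ((L j).pow p) ((L (j + 1)).pow q) := by
    intro j
    obtain ⟨p, q, hp, hq, h⟩ := hflip j
    exact ⟨p, q, hp, hq, (H615.stD0 _ _ _ _ _ _ _ _ h).1⟩
  choose pp qq hpq using hch
  have hreg : ∀ j, DimLe (X (j + 1)) 1
      {x | x ∈ f' j ⁻¹' Amin (f j) ∧ ¬ IsReg 4 (X (j + 1)) x} := fun j =>
    stRegC Y χ hχ M hM hnef m hm (j + 1) W X Z (hpq 0).2.2.normal r v p P G hR f f' A L hL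
      (fun j _ => hflip j) j (Nat.lt_succ_self j)
  have hinf := rinf_c X Z (fun y => p (v y)) (⋃ l, G l)ᶜ (isRes_top hR) f f'
    (fun j => Amin (f j)) (fun j => (L j).pow (pp j)) (fun j => (L (j + 1)).pow (qq j))
    (fun j => (hpq j).2.2) hreg
  set B : Set ℕ := {j | ¬ DimLe (X (j + 1)) 1 (f' j ⁻¹' Amin (f j))} with hB
  have hBinf : B.Infinite := by
    refine Set.infinite_of_forall_exists_gt fun a => ?_
    obtain ⟨j, hj, hj'⟩ := hinf (a + 1)
    exact ⟨j, hj', hj⟩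
  obtain ⟨t, htB, htc⟩ := hBinf.exists_subset_card_eq (m * r + 1)
  set N : ℕ := t.sup id + 1 with hN
  have h1 := stP7c Y χ hχ M hM hnef m hm N W X Z (hpq 0).2.2.normal r v p P G hR f f' A L hL
    fun j _ => hflip j
  have h2 : (t : Set ℕ) ⊆ {j | j < N ∧ ¬ DimLe (X (j + 1)) 1 (f' j ⁻¹' Amin (f j))} := by
    intro j hj
    refine ⟨?_, htB hj⟩
    have h3 : id j ≤ t.sup id := Finset.le_sup (f := id) (Finset.mem_coe.1 hj)
    simp only [id] at h3
    omega
  have h3 := ncard_le_ncard h2 ((Set.finite_lt_nat N).subset fun i hi => hi.1)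
  rw [ncard_coe_finset, htc] at h3
  omega

end Vale.Agent.P277.H371.C
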