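import Vale.Agent.P277.H371.C.FlipB
import Vale.Agent.P277.H371.C.Fin

/-!
# P277, T3: the assembly of Theorem T3 from CONTR, REGB and P7B
-/

set_option maxSynthPendingDepth 3

open scoped Manifold ContDiff Topology
open Vale.Agent.P272.K Vale.Agent.P285.H281.FD Vale.Agent.P267.H175 Set Filter

noncomputable section

namespace Vale.Agent.P277.H371.C

open Vale.Agent.P277 Vale.Agent.P277.T3 H615

section seq

variable {Y : Type} [TopologicalSpace Y] [ChartedSpace (Cm 4) Y] {X Z : ℕ → CSp}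
  {f : ∀ j, (X j).pt → (Z j).pt} {f' : ∀ j, (X (j + 1)).pt → (Z j).pt} {A : ∀ j, Set (Z j).pt}

/-- the common open subsets -/
def sq (f : ∀ j, (X j).pt → (Z j).pt) {f' : ∀ j, (X (j + 1)).pt → (Z j).pt}
    {A : ∀ j, Set (Z j).pt} (h' : ∀ j, IsSmall (X (j + 1)) (Z j) (f' j) (A j)) (O₀ : Set Y)
    (v₀ : Y → (X 0).pt) : ∀ j, Set Y × (Y → (X j).pt)
  | 0 => (O₀, v₀)
  | j + 1 => ({y | y ∈ (sq f h' O₀ v₀ j).1 ∧ f j ((sq f h' O₀ v₀ j).2 y) ∉ A j},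
      fun y => (h' j).sec (f j ((sq f h' O₀ v₀ j).2 y)))

theorem isSeq_sq (h : ∀ j, IsSmall (X j) (Z j) (f j) (A j))
    (h' : ∀ j, IsSmall (X (j + 1)) (Z j) (f' j) (A j)) {O₀ : Set Y} {v₀ : Y → (X 0).pt}
    (hO : IsOpenEmb (X 0) O₀ v₀) (hd : DimLe (X 0) 2 (v₀ '' O₀)ᶜ) :
    IsSeq X Z f f' A (fun j => (sq f h' O₀ v₀ j).1) (fun j => (sq f h' O₀ v₀ j).2) := by
  have key : ∀ j, IsOpenEmb (X j) (sq f h' O₀ v₀ j).1 (sq f h' O₀ v₀ j).2 ∧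
      DimLe (X j) 2 ((sq f h' O₀ v₀ j).2 '' (sq f h' O₀ v₀ j).1)ᶜ := by
    intro j
    induction j with
    | zero => exact ⟨hO, hd⟩
    | succ j ih =>
      exact ⟨ih.1.flip (h j) (h' j), dimLe_compl_flip (h j) (h' j) ih.2 (h' j).dim⟩
  refine ⟨fun j => (key j).1, fun j => (key j).2, fun j => ?_, fun j y hy => ?_⟩
  · ext y
    exact Iff.rfl
  · exact (h' j).sec_eq _

end seq

section zer

variable {X : CSp} {L : Bd X.pt} {σ : L.ι → X.pt → ℂ}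

theorem mem_zer (hs : IsSecx X univ L σ) {x : X.pt} {a : L.ι} (ha : x ∈ L.U a) :
    x ∈ zer L σ ↔ σ a x = 0 := by
  refine ⟨fun h => h a ha, fun h b hb => ?_⟩
  rw [hs.change b a x (mem_univ _) hb ha, h, mul_zero]

theorem zer_closed (hL : IsLBx X L) (hs : IsSecx X univ L σ) : IsClosed (zer L σ) := by
  rw [← isOpen_compl_iff, isOpen_iff_mem_nhds]
  intro x hx
  have hx' : ¬ ∀ a, x ∈ L.U a → σ a x = 0 := hx
  push Not at hx'
  obtain ⟨a, ha, hne⟩ := hx'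
  have h1 : ∀ᶠ y in 𝓝 x, y ∈ L.U a := (hL.isOpen a).mem_nhds ha
  have h2 : ∀ᶠ y in 𝓝 x, σ a y ≠ 0 :=
    (hol_continuousAt (hs.holo a x (mem_univ _) ha)).eventually_ne hne
  filter_upwards [h1, h2] with y y1 y2 hy
  exact y2 (hy a y1)

theorem zer_eqn (hL : IsLBx X L) (hs : IsSecx X univ L σ) (x : X.pt) :
    ∃ g, X.Hol g x ∧ ∀ᶠ x' in 𝓝 x, x' ∈ zer L σ ↔ g x' = 0 := by
  obtain ⟨a, ha⟩ := hL.cover x
  refine ⟨σ a, hs.holo a x (mem_univ _) ha, ?_⟩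
  filter_upwards [(hL.isOpen a).mem_nhds ha] with x' hx'
  exact mem_zer hs hx'

end zer

section

variable {Y : Type} [TopologicalSpace Y] [ChartedSpace (Cm 4) Y]
  {χ : Chart 4 Y → Cm 4 → Matrix (Fin 4) (Fin 4) ℂ} {k s : ℕ} {M : Fin (k + s) → Bd Y}
  {m : Fin (k + s) → ℕ} {ρ : Fin (k + s) → ℝ} {H : Fin s → Type} [∀ i, TopologicalSpace (H i)]
  [∀ i, ChartedSpace (Cm 3) (H i)] {ι : ∀ i, H i → Y}
  {sg : ∀ i : Fin s, (M (Fin.natAdd k i)).ι → Y → ℂ} {W : CSp} {X Z : ℕ → CSp} {r : ℕ}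
  {v₀ : Y → W.pt} {p : W.pt → (X 0).pt} {P : Bd W.pt} {G : Fin r → Set Y}
  {f : ∀ j, (X j).pt → (Z j).pt} {f' : ∀ j, (X (j + 1)).pt → (Z j).pt}
  {A : ∀ j, Set (Z j).pt} {L : ∀ j, Fin (k + s) → Bd (X j).pt} {c : ℕ → Fin (k + s) → ℕ}
  {σ : ∀ j, ∀ i : Fin s, (L j (Fin.natAdd k i)).ι → (X j).pt → ℂ}
  {n : Fin (k + s) → Fin r → ℤ} {t : ∀ e, (L 0 e).ι →
    ((((Bd.can 4 Y).pow (m e)).mul (M e)).pow (c 0 e)).ι → Y → ℂ}

theorem _root_.Vale.Agent.P277.T3.IsPS.amin (h : IsPS χ M m ρ ι sg v₀ p P G f f' A L c σ n t) :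
    IsPS χ M m ρ ι sg v₀ p P G f f' (fun j => Amin (f j)) L c σ n t :=
  { h with flip := fun j => IsFlipB.amin (h.flip j) (h.c1 j) }

theorem cmpV_ne (h : T2.IsCmpV (fun y => p (v₀ y)) (L 0)
    (fun e => (((Bd.can 4 Y).pow (m e)).mul (M e)).pow (c 0 e)) G n t) {e : Fin (k + s)}
    {a : (L 0 e).ι} {b : ((((Bd.can 4 Y).pow (m e)).mul (M e)).pow (c 0 e)).ι} {y : Y}
    (hy : y ∉ ⋃ l, G l) (ha : p (v₀ y) ∈ (L 0 e).U a)
    (hb : y ∈ ((((Bd.can 4 Y).pow (m e)).mul (M e)).pow (c 0 e)).U b) : t e a b y ≠ 0 := by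
  obtain ⟨ζ, hζ, h1⟩ := h.div y
  obtain ⟨u, hu, -, h2⟩ := h1 e a b ha hb
  rw [h2.self_of_nhds hy]
  refine mul_ne_zero hu (Finset.prod_ne_zero_iff.2 fun l _ => zpow_ne_zero _ ?_)
  rw [Ne, (hζ l).1.self_of_nhds]
  exact fun h3 => hy (mem_iUnion.2 ⟨l, h3⟩)

variable {O : ℕ → Set Y} {v : ∀ j, Y → (X j).pt}

theorem isStr [∀ i, CompactSpace (H i)] (hl : ∀ y : Y, ∃ e : Chart 4 Y, At e y)
    (h : IsPS χ M m ρ ι sg v₀ p P G f f' A L c σ n t)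
    (hs : IsSeq X Z f f' A O v) (hO : O 0 = (⋃ l, G l)ᶜ) (hv : v 0 = fun y => p (v₀ y))
    (i : Fin s) : IsStr X O v (ι i) (fun j => zer (L j (Fin.natAdd k i)) (σ j i)) := by
  have hlb : ∀ j, IsLBx (X j) (L j (Fin.natAdd k i)) := fun j => (h.flip j).flip.lb _
  have hsec : ∀ j, IsSecx (X j) univ (L j (Fin.natAdd k i)) (σ j i) := fun j => (h.flip j).sec i
  refine ⟨fun j => zer_closed (hlb j) (hsec j), fun j x => zer_eqn (hlb j) (hsec j) x,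
    fun j => ?_⟩
  induction j with
  | zero =>
    intro y hy
    rw [hO] at hy
    have hy' : y ∉ ⋃ l, G l := hy
    obtain ⟨a, ha⟩ := (hlb 0).cover (p (v₀ y))
    obtain ⟨ch, hch⟩ := hl y
    obtain ⟨b, hb⟩ := (h.lb (Fin.natAdd k i)).cover y
    have h1 := h.corr i a ch b y hy' ha hch hb
    have h2 : t (Fin.natAdd k i) a (ch, b) y ≠ 0 := cmpV_ne h.cmp hy' ha ⟨hch, hb⟩
    rw [hv]
    show p (v₀ y) ∈ zer (L 0 (Fin.natAdd k i)) (σ 0 i) ↔ y ∈ range (ι i)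
    rw [mem_zer (hsec 0) ha, ← (h.bd i).zero b y hb]
    have h3 : c 0 (Fin.natAdd k i) ≠ 0 := Nat.one_le_iff_ne_zero.1 (h.c1 0 _)
    constructor
    · intro h4
      rw [h4, zero_mul] at h1
      exact pow_eq_zero_iff h3 |>.1 h1.symm
    · intro h4
      rw [h4, zero_pow h3] at h1
      exact (mul_eq_zero.1 h1).resolve_right h2
  | succ j ih =>
    intro y hy
    have hy' := hy
    rw [hs.step j] at hy'
    rw [← ih y hy'.1]
    obtain ⟨p', q', hp', hq', -, t', ht', hcor⟩ := (h.flip j).corr i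
    obtain ⟨a, ha⟩ := (hlb j).cover (v j y)
    obtain ⟨b, hb⟩ := (hlb (j + 1)).cover (v (j + 1) y)
    have hA : f j (v j y) ∉ A j := hy'.2
    have h1 := hcor (v j y) (v (j + 1) y) a b hA (hs.comp j y hy) ha hb
    have h2 := (ht'.holo (v j y) (v (j + 1) y) a b hA (hs.comp j y hy) ha hb).2
    rw [mem_zer (hsec j) ha, mem_zer (hsec (j + 1)) hb]
    constructor
    · intro h4
      rw [h4, zero_pow (by omega)] at h1
      exact (pow_eq_zero_iff (by omega)).1 ((mul_eq_zero.1 h1).resolve_right h2)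
    · intro h4
      rw [h4, zero_pow (by omega), zero_mul] at h1
      exact (pow_eq_zero_iff (by omega)).1 h1.symm

end

/-- **Theorem T3**, from CONTR, REGB and P7B. -/
theorem stT3_of (hC : StContr) (hR : StRegB) (hP : StP7B) : StT3 := by
  intro Y _ _ _ _ _ χ k s M m ρ H _ _ _ _ _ _ ι sg W X Z r v₀ p P G f f' A L c σ n t h'
  have h := h'.amin
  have hsm : ∀ j, IsSmall (X j) (Z j) (f j) (Amin (f j)) := fun j => (h.flip j).flip.small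
  have hsm' : ∀ j, IsSmall (X (j + 1)) (Z j) (f' j) (Amin (f j)) := fun j =>
    (h.flip j).flip.small'
  have hseq := isSeq_sq hsm hsm' h.res.emb' (by
    refine (h.res.dim).mono ?_
    intro x hx
    obtain ⟨w, rfl⟩ := h.res.psurj x
    obtain ⟨y, rfl⟩ := h.res.surj w
    refine ⟨y, ?_, rfl⟩
    by_contra hy
    exact hx ⟨y, hy, rfl⟩)
  set O : ℕ → Set Y := fun j => (sq f hsm' (⋃ l, G l)ᶜ (fun y => p (v₀ y)) j).1 with hOd
  set v : ∀ j, Y → (X j).pt :=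
    fun j => (sq f hsm' (⋃ l, G l)ᶜ (fun y => p (v₀ y)) j).2 with hvd
  have hO0 : O 0 = (⋃ l, G l)ᶜ := rfl
  have hv0 : v 0 = fun y => p (v₀ y) := rfl
  have hreg := hR Y χ k s M m ρ H ι sg W X Z r v₀ p P G f f' _ L c σ n t h
  have hflip : ∀ j, ∃ (L₁ : Bd (X j).pt) (L₂ : Bd (X (j + 1)).pt),
      IsFlip (X j) (Z j) (X (j + 1)) (f j) (f' j) (Amin (f j)) L₁ L₂ := by
    intro j
    obtain ⟨p, q, s, d, a, -, -, h1, -⟩ := exists_flipD (h.flip j).flip (h.c1 j)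
    exact ⟨_, _, h1.flip none⟩
  choose L₁ L₂ hL using hflip
  have hl : ∀ y : Y, ∃ e : Chart 4 Y, At e y := fun y =>
    ⟨chartAt (Cm 4) y, chart_mem_atlas _ y, mem_chart_source _ y⟩
  -- the surfaces of `H μ` are eventually not contracted
  have key : ∀ μ : Fin s, ∃ J, ∀ j ≥ J, ThinM 3 1 (ι μ ⁻¹' O j \ ι μ ⁻¹' O (j + 1)) := by
    have hwf : WellFounded fun a b : Fin s => ρ (Fin.natAdd k b) < ρ (Fin.natAdd k a) := by
      have : IsTrans (Fin s) fun a b : Fin s => ρ (Fin.natAdd k b) < ρ (Fin.natAdd k a) :=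
        ⟨fun a b c h1 h2 => h2.trans h1⟩
      have : IsIrrefl (Fin s) fun a b : Fin s => ρ (Fin.natAdd k b) < ρ (Fin.natAdd k a) :=
        ⟨fun a h1 => lt_irrefl _ h1⟩
      exact Finite.wellFounded_of_trans_of_irrefl _
    intro μ
    induction μ using hwf.induction with
    | _ μ ih =>
      obtain ⟨J, hJ⟩ := hP Y χ k s M m ρ H ι sg W X Z r v₀ p P G f f' _ L c σ n t h O v hseq hO0
        hv0 (ρ (Fin.natAdd k μ)) fun μ' hμ' => ih μ' hμ'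
      refine hC Y W X Z r v₀ p P G h.res f f' (fun j => Amin (f j)) L₁ L₂ hL O v hseq hO0 hv0
        (H μ) (ι μ) (h.bd μ).sub ?_ (fun j => zer (L j (Fin.natAdd k μ)) (σ j μ))
        (isStr hl h hseq hO0 hv0 μ) (fun j => ?_) ⟨J, fun j hj => ?_⟩
      · obtain ⟨_, ⟨x, rfl⟩, hx⟩ := not_subset.1 (h.ne μ)
        exact ⟨x, hx⟩
      · exact (hreg j).mono fun x hx => ⟨hx.1, hx.2.2⟩
      · exact (hJ j hj).mono fun x hx => ⟨hx.1, Or.inr ⟨μ, le_rfl, hx.2⟩⟩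
  obtain ⟨J, hJ⟩ := hP Y χ k s M m ρ H ι sg W X Z r v₀ p P G f f' _ L c σ n t h O v hseq hO0
    hv0 0 fun μ _ => key μ
  obtain ⟨j, hj, hj'⟩ := rinf_c X Z (fun y => p (v₀ y)) (⋃ l, G l)ᶜ (isRes_top h.res) f f'
    (fun j => Amin (f j)) L₁ L₂ hL hreg J
  exact hj' ((hJ j hj).mono fun x hx => ⟨hx, Or.inl le_rfl⟩)

end Vale.Agent.P277.H371.C
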