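import Vale.Agent.P277.Stmts13
import Vale.Agent.P277.H615.R.FlipD

/-!
# P277, T3: the exceptional sets of the flips can be replaced by the minimal ones
-/

open scoped Manifold ContDiff Topology
open Vale.Agent.P272.K Vale.Agent.P285.H281.FD Vale.Agent.P267.H175 Set Filter Metric

noncomputable section

namespace Vale.Agent.P277.H371.C

open Vale.Agent.P277 Vale.Agent.P277.T2 Vale.Agent.P277.T3 Vale.Agent.P277.H615

variable {X Z X' : CSp} {f : X.pt → Z.pt} {f' : X'.pt → Z.pt} {A : Set Z.pt} {k s : ℕ}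

/-- an isomorphism extends to the complement of the minimal exceptional set -/
theorem iso_amin' {L : Bd X.pt} {L' : Bd X'.pt} (hZ : IsNormal 4 Z) (hsm : IsSmall X Z f A)
    (h2 : IsSmall X Z f (Amin f)) (h2' : IsSmall X' Z f' (Amin f)) (hlb : IsLBx X L)
    (hlb' : IsLBx X' L') {t : L.ι → L'.ι → Z.pt → ℂ} (ht : IsIso f f' A L L' t) :
    ∃ T, IsIso f f' (Amin f) L L' T ∧ ∀ x x' i j, f x ∉ A → f' x' = f x → x ∈ L.U i →
      x' ∈ L'.U j → T i j (f x) = t i j (f x) := by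
  -- the domain
  let D : L.ι → L'.ι → Set Z.pt := fun i j =>
    {z | z ∉ Amin f ∧ h2.sec z ∈ L.U i ∧ h2'.sec z ∈ L'.U j}
  have hD : ∀ i j, IsOpen (D i j) := by
    intro i j
    rw [isOpen_iff_mem_nhds]
    rintro z ⟨hz, hzi, hzj⟩
    have n1 : ∀ᶠ w in 𝓝 z, w ∉ Amin f := h2.isClosed.isOpen_compl.mem_nhds hz
    have n2 : ∀ᶠ w in 𝓝 z, h2.sec w ∈ L.U i :=
      (h2.holMap_sec hz).1.eventually_mem ((hlb.isOpen i).mem_nhds hzi)
    have n3 : ∀ᶠ w in 𝓝 z, h2'.sec w ∈ L'.U j :=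
      (h2'.holMap_sec hz).1.eventually_mem ((hlb'.isOpen j).mem_nhds hzj)
    filter_upwards [n1, n2, n3] with w w1 w2 w3
    exact ⟨w1, w2, w3⟩
  have htD : ∀ i j, ∀ z ∈ D i j, z ∉ A → Z.Hol (t i j) z ∧ t i j z ≠ 0 := by
    rintro i j z ⟨hz, hzi, hzj⟩ hzA
    have h3 := ht.holo (h2.sec z) (h2'.sec z) i j (by rw [h2.sec_eq]; exact hzA)
      (by rw [h2.sec_eq, h2'.sec_eq]) hzi hzj
    rwa [h2.sec_eq] at h3
  have hA2 : ∀ i j, DimLe Z 2 (D i j ∩ A) := fun i j => (dimLe_A hsm).mono inter_subset_right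
  choose T hT1 hT2 using fun i j => hZ.ext (D i j) A (hD i j)
    (hsm.an.mono (subset_univ _)) (hA2 i j) (t i j) fun z hz => (htD i j z hz.1 hz.2).1
  choose U hU1 hU2 using fun i j => hZ.ext (D i j) A (hD i j)
    (hsm.an.mono (subset_univ _)) (hA2 i j) (fun z => (t i j z)⁻¹) fun z hz =>
      hol_inv (htD i j z hz.1 hz.2).1 (htD i j z hz.1 hz.2).2
  have hdA : Dense Aᶜ := dense_A hZ hsm
  have hTU : ∀ i j, ∀ z ∈ D i j, T i j z * U i j z = 1 := by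
    intro i j
    refine eqOn_of_dense (hD i j) hdA
      (hol_continuousOn fun z hz => hol_mul (hT1 i j z hz) (hU1 i j z hz)) continuousOn_const ?_
    intro z hz hzA
    rw [hT2 i j z ⟨hz, hzA⟩, hU2 i j z ⟨hz, hzA⟩]
    exact mul_inv_cancel₀ (htD i j z hz hzA).2
  have hmem : ∀ x x' i j, f x ∉ Amin f → f' x' = f x → x ∈ L.U i → x' ∈ L'.U j → f x ∈ D i j := by
    intro x x' i j hx hxx' hi hj
    refine ⟨hx, ?_, ?_⟩
    · rw [h2.sec_apply hx]; exact hi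
    · rw [← hxx', h2'.sec_apply (by rw [hxx']; exact hx)]; exact hj
  refine ⟨T, ⟨?_, ?_⟩, ?_⟩
  · intro x x' i j hx hxx' hi hj
    have h3 := hmem x x' i j hx hxx' hi hj
    exact ⟨hT1 i j _ h3, left_ne_zero_of_mul (by rw [hTU i j _ h3]; exact one_ne_zero)⟩
  · intro x x' i i₁ j j₁ hx hxx' hi hi₁ hj hj₁
    have h3 := hmem x x' i j hx hxx' hi hj
    have h4 := hmem x x' i₁ j₁ hx hxx' hi₁ hj₁
    have h5 : ∀ z ∈ D i j ∩ D i₁ j₁,
        T i₁ j₁ z = L.g i i₁ (h2.sec z) * T i j z * L'.g j₁ j (h2'.sec z) := by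
      refine eqOn_of_dense ((hD i j).inter (hD i₁ j₁)) hdA
        (hol_continuousOn fun z hz => hT1 i₁ j₁ z hz.2)
        (hol_continuousOn (g := fun z => L.g i i₁ (h2.sec z) * T i j z * L'.g j₁ j (h2'.sec z))
          fun z hz => ?_) ?_
      · have a1 : Z.Hol (L.g i i₁ ∘ h2.sec) z :=
          (h2.holMap_sec hz.1.1).2 _ (hlb.holo i i₁ _ hz.1.2.1 hz.2.2.1)
        have a2 : Z.Hol (L'.g j₁ j ∘ h2'.sec) z :=
          (h2'.holMap_sec hz.1.1).2 _ (hlb'.holo j₁ j _ hz.2.2.2 hz.1.2.2)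
        exact hol_mul (hol_mul a1 (hT1 i j z hz.1)) a2
      · rintro z ⟨hz1, hz2⟩ hzA
        have b1 := ht.change (h2.sec z) (h2'.sec z) i i₁ j j₁ (by rw [h2.sec_eq]; exact hzA)
          (by rw [h2.sec_eq, h2'.sec_eq]) hz1.2.1 hz2.2.1 hz1.2.2 hz2.2.2
        rw [h2.sec_eq] at b1
        rw [hT2 i₁ j₁ z ⟨hz2, hzA⟩, hT2 i j z ⟨hz1, hzA⟩, b1]
    have h6 := h5 (f x) ⟨h3, h4⟩
    rwa [h2.sec_apply hx, ← hxx', h2'.sec_apply (by rw [hxx']; exact hx), hxx'] at h6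
  · intro x x' i j hx hxx' hi hj
    exact hT2 i j _ ⟨hmem x x' i j (fun h => hx (amin_sub_A hsm h)) hxx' hi hj, hx⟩

theorem IsFlipR.amin {L : Fin k → Bd X.pt} {L' : Fin k → Bd X'.pt} {c c' : Fin k → ℕ}
    {ρ : Fin k → ℝ} (h : IsFlipR X Z X' f f' A L L' c c' ρ) (hc : ∀ e, 1 ≤ c e) :
    IsFlipR X Z X' f f' (Amin f) L L' c c' ρ := by
  obtain ⟨p, q, s, d, a, -, -, hD, -⟩ := exists_flipD h hc
  refine ⟨h.normal, h.normalZ, h.normal', hD.small, hD.small', h.ninj, h.ninj', h.lb, h.lb', ?_,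
    h.ample, h.ample'⟩
  intro e
  obtain ⟨p, q, hp, hq, hpq, t, ht⟩ := h.iso e
  obtain ⟨T, hT, -⟩ := iso_amin' h.normalZ h.small hD.small hD.small' (IsLBx.pow (h.lb e) p)
    (IsLBx.pow (h.lb' e) q) ht
  exact ⟨p, q, hp, hq, hpq, T, hT⟩

theorem IsFlipB.amin {L : Fin (k + s) → Bd X.pt} {L' : Fin (k + s) → Bd X'.pt}
    {c c' : Fin (k + s) → ℕ} {ρ : Fin (k + s) → ℝ}
    {σ : ∀ i : Fin s, (L (Fin.natAdd k i)).ι → X.pt → ℂ}
    {σ' : ∀ i : Fin s, (L' (Fin.natAdd k i)).ι → X'.pt → ℂ}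
    (h : IsFlipB X Z X' f f' A L L' c c' ρ σ σ') (hc : ∀ e, 1 ≤ c e) :
    IsFlipB X Z X' f f' (Amin f) L L' c c' ρ σ σ' := by
  have hR := IsFlipR.amin h.flip hc
  refine ⟨hR, h.sec, h.sec', fun i => ?_⟩
  obtain ⟨p, q, hp, hq, hpq, t, ht, hcor⟩ := h.corr i
  obtain ⟨T, hT, hTt⟩ := iso_amin' h.flip.normalZ h.flip.small hR.small hR.small'
    (IsLBx.pow (h.flip.lb (Fin.natAdd k i)) p) (IsLBx.pow (h.flip.lb' (Fin.natAdd k i)) q) ht
  refine ⟨p, q, hp, hq, hpq, T, hT, fun x x' a b hx hxx' ha hb => ?_⟩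
  have h2 := hR.small
  have h2' := hR.small'
  have hla := (h.flip.lb (Fin.natAdd k i)).isOpen a
  have hlb := (h.flip.lb' (Fin.natAdd k i)).isOpen b
  set D : Set Z.pt := {z | z ∉ Amin f ∧ h2.sec z ∈ (L (Fin.natAdd k i)).U a ∧
    h2'.sec z ∈ (L' (Fin.natAdd k i)).U b} with hDd
  have hD : IsOpen D := by
    rw [isOpen_iff_mem_nhds]
    rintro z ⟨hz, hzi, hzj⟩
    have n1 : ∀ᶠ w in 𝓝 z, w ∉ Amin f := h2.isClosed.isOpen_compl.mem_nhds hz
    have n2 := (h2.holMap_sec hz).1.eventually_mem (hla.mem_nhds hzi)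
    have n3 := (h2'.holMap_sec hz).1.eventually_mem (hlb.mem_nhds hzj)
    filter_upwards [n1, n2, n3] with w w1 w2 w3
    exact ⟨w1, w2, w3⟩
  have hdA : Dense Aᶜ := dense_A h.flip.normalZ h.flip.small
  have key : ∀ z ∈ D, σ i a (h2.sec z) ^ p * T a b z = σ' i b (h2'.sec z) ^ q := by
    refine eqOn_of_dense hD hdA (hol_continuousOn
      (g := fun z => σ i a (h2.sec z) ^ p * T a b z) fun z hz => ?_) (hol_continuousOn
      (g := fun z => σ' i b (h2'.sec z) ^ q) fun z hz => ?_) fun z hz hzA => ?_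
    · have a1 : Z.Hol (σ i a ∘ h2.sec) z :=
        (h2.holMap_sec hz.1).2 _ ((h.sec i).holo a _ (mem_univ _) hz.2.1)
      have a2 := (hT.holo (h2.sec z) (h2'.sec z) a b (by rw [h2.sec_eq]; exact hz.1)
        (by rw [h2.sec_eq, h2'.sec_eq]) hz.2.1 hz.2.2).1
      rw [h2.sec_eq] at a2
      exact hol_mul (hol_pow a1 p) a2
    · have a1 : Z.Hol (σ' i b ∘ h2'.sec) z :=
        (h2'.holMap_sec hz.1).2 _ ((h.sec' i).holo b _ (mem_univ _) hz.2.2)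
      exact hol_pow a1 q
    · have a1 := hcor (h2.sec z) (h2'.sec z) a b (by rw [h2.sec_eq]; exact hzA)
        (by rw [h2.sec_eq, h2'.sec_eq]) hz.2.1 hz.2.2
      have a2 := hTt (h2.sec z) (h2'.sec z) a b (by rw [h2.sec_eq]; exact hzA)
        (by rw [h2.sec_eq, h2'.sec_eq]) hz.2.1 hz.2.2
      rw [h2.sec_eq] at a1 a2
      rw [← a1, a2]
  have hz : f x ∈ D := by
    refine ⟨hx, ?_, ?_⟩
    · rw [h2.sec_apply hx]; exact ha
    · rw [← hxx', h2'.sec_apply (by rw [hxx']; exact hx)]; exact hb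
  have h6 := key (f x) hz
  rwa [h2.sec_apply hx, ← hxx', h2'.sec_apply (by rw [hxx']; exact hx), hxx'] at h6

end Vale.Agent.P277.H371.C
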