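import Vale.Agent.P277.Stmts15
import Vale.Agent.P277.H371.C.FlipB

/-!
# P277, T3: the sections of the line bundles defined by the boundary divisors exist
-/

open scoped Manifold ContDiff Topology
open Vale.Agent.P272.K Vale.Agent.P285.H281.FD Vale.Agent.P267.H175 Set Filter Metric

noncomputable section

namespace Vale.Agent.P277.H371.C

open Vale.Agent.P277 Vale.Agent.P277.T2 Vale.Agent.P277.T3 Vale.Agent.P277.H615

/-- sections extend over analytic subsets of codimension two -/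
theorem exists_secx {X : CSp} (hX : IsNormal 4 X) {L : Bd X.pt} (hL : IsLBx X L) {S : Set X.pt}
    (hS : IsAn X univ S) (hd : DimLe X 2 S) {s : L.ι → X.pt → ℂ} (hs : IsSecx X Sᶜ L s) :
    ∃ s', IsSecx X univ L s' ∧ ∀ i, ∀ x ∈ L.U i, x ∉ S → s' i x = s i x := by
  have h1 : ∀ i, ∃ g : X.pt → ℂ, (∀ x ∈ L.U i, X.Hol g x) ∧ ∀ x ∈ L.U i \ S, g x = s i x :=
    fun i => hX.ext (L.U i) S (hL.isOpen i) (hS.mono (subset_univ _)) (hd.mono inter_subset_right)
      (s i) fun x hx => hs.holo i x hx.2 hx.1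
  choose g hg1 hg2 using h1
  have hdS : Dense Sᶜ := dense_compl_of_dimLe (n := 4) (by norm_num) hX.dense hd
  refine ⟨g, ⟨fun i x _ hx => hg1 i x hx, fun i j x _ hi hj => ?_⟩,
    fun i x hx hxS => hg2 i x ⟨hx, hxS⟩⟩
  have h2 : ∀ x ∈ L.U i ∩ L.U j, g i x = L.g i j x * g j x := by
    refine eqOn_of_dense ((hL.isOpen i).inter (hL.isOpen j)) hdS
      (hol_continuousOn fun x hx => hg1 i x hx.1)
      (hol_continuousOn (g := fun x => L.g i j x * g j x) fun x hx =>
        hol_mul (hL.holo i j x hx.1 hx.2) (hg1 j x hx.2)) fun x hx hxS => ?_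
    rw [hg2 i x ⟨hx.1, hxS⟩, hg2 j x ⟨hx.2, hxS⟩]
    exact hs.change i j x hxS hx.1 hx.2
  exact h2 x ⟨hi, hj⟩

/-- a section is transported through a flip -/
theorem exists_sec_flip {X Z X' : CSp} {f : X.pt → Z.pt} {f' : X'.pt → Z.pt} {A : Set Z.pt}
    (hX' : IsNormal 4 X') (hsm : IsSmall X Z f A) (hsm' : IsSmall X' Z f' A) {L : Bd X.pt}
    {L' : Bd X'.pt} (hL : IsLBx X L) (hL' : IsLBx X' L') {p q P : ℕ}
    {t : L.ι → L'.ι → Z.pt → ℂ} (ht : IsIso f f' A (L.pow p) (L'.pow q) t)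
    {σ : L.ι → X.pt → ℂ} (hσ : IsSecx X univ (L.pow P) σ) :
    ∃ σ' : L'.ι → X'.pt → ℂ, IsSecx X' univ (L'.pow (q * P)) σ' ∧
      ∀ x x' a b, f x ∉ A → f' x' = f x → x ∈ L.U a → x' ∈ L'.U b →
        σ a x ^ p * t a b (f x) ^ P = σ' b x' := by
  choose al hal using hL.cover
  -- independence of the frame of `L`
  have hind : ∀ x x' a a₁ b, f x ∉ A → f' x' = f x → x ∈ L.U a → x ∈ L.U a₁ → x' ∈ L'.U b →
      σ a x ^ p * t a b (f x) ^ P = σ a₁ x ^ p * t a₁ b (f x) ^ P := by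
    intro x x' a a₁ b hx hxx' ha ha₁ hb
    have h1 : σ a x = L.g a a₁ x ^ P * σ a₁ x := hσ.change a a₁ x (mem_univ _) ha ha₁
    have h2 : t a₁ b (f x) = L.g a a₁ x ^ p * t a b (f x) * L'.g b b x' ^ q :=
      ht.change x x' a a₁ b b hx hxx' ha ha₁ hb hb
    have h3 : L'.g b b x' = 1 := by
      have h4 := hL'.cocycle b b b x' hb hb hb
      have h5 := hL'.ne_zero b b x' hb hb
      field_simp at h4
      exact h4
    rw [h3, one_pow, mul_one] at h2
    rw [h1, h2, mul_pow, mul_pow, ← pow_mul, ← pow_mul, mul_comm P p]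
    ring
  set s₀ : L'.ι → X'.pt → ℂ := fun b x' =>
    σ (al (hsm.sec (f' x'))) (hsm.sec (f' x')) ^ p * t (al (hsm.sec (f' x'))) b (f' x') ^ P
    with hs₀
  have hs₀e : ∀ x x' a b, f x ∉ A → f' x' = f x → x ∈ L.U a → x' ∈ L'.U b →
      σ a x ^ p * t a b (f x) ^ P = s₀ b x' := by
    intro x x' a b hx hxx' ha hb
    have h1 : hsm.sec (f x) = x := hsm.sec_apply hx
    simp only [hs₀, hxx', h1]
    exact hind x x' a (al x) b hx hxx' ha (hal x) hb
  have hsec₀ : IsSecx X' (f' ⁻¹' A)ᶜ (L'.pow (q * P)) s₀ := by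
    refine ⟨fun b x' hx' hb => ?_, fun b b₁ x' hx' hb hb₁ => ?_⟩
    · have hxA : f' x' ∉ A := hx'
      set x := hsm.sec (f' x') with hx
      have hfx : f x = f' x' := hsm.sec_eq _
      have hxA' : f x ∉ A := by rw [hfx]; exact hxA
      have e1 : ∀ᶠ z in 𝓝 x', f' z ∉ A :=
        hsm'.cont.continuousAt.eventually_mem (hsm'.isClosed.isOpen_compl.mem_nhds hxA)
      have e2 : ∀ᶠ z in 𝓝 x', z ∈ L'.U b := (hL'.isOpen b).mem_nhds hb
      have hc : ContinuousAt (fun z => hsm.sec (f' z)) x' :=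
        ContinuousAt.comp (g := hsm.sec) (hsm.holMap_sec hxA).1 hsm'.cont.continuousAt
      have e3 : ∀ᶠ z in 𝓝 x', hsm.sec (f' z) ∈ L.U (al x) :=
        hc.eventually_mem ((hL.isOpen _).mem_nhds (hal x))
      have h1 : X'.Hol (fun z => σ (al x) (hsm.sec (f' z)) ^ p * t (al x) b (f' z) ^ P) x' := by
        refine hol_mul (hol_pow ?_ p) (hol_pow ?_ P)
        · have a1 : X.Hol (σ (al x)) x := hσ.holo (al x) x (mem_univ _) (hal x)
          have a2 : Z.Hol (σ (al x) ∘ hsm.sec) (f' x') := (hsm.holMap_sec hxA).2 _ a1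
          exact hsm'.holo _ _ a2
        · have a1 := (ht.holo x x' (al x) b hxA' hfx.symm (hal x) hb).1
          rw [hfx] at a1
          exact hsm'.holo _ _ a1
      refine hol_congr h1 ?_
      filter_upwards [e1, e2, e3] with z z1 z2 z3
      have h2 := hs₀e (hsm.sec (f' z)) z (al x) b (by rw [hsm.sec_eq]; exact z1)
        (hsm.sec_eq _).symm z3 z2
      rw [hsm.sec_eq] at h2
      exact h2.symm
    · have hxA : f' x' ∉ A := hx'
      set x := hsm.sec (f' x') with hx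
      have hfx : f x = f' x' := hsm.sec_eq _
      have hxA' : f x ∉ A := by rw [hfx]; exact hxA
      rw [← hs₀e x x' (al x) b hxA' hfx.symm (hal x) hb,
        ← hs₀e x x' (al x) b₁ hxA' hfx.symm (hal x) hb₁]
      have h2 : t (al x) b (f x) = L.g (al x) (al x) x ^ p * t (al x) b₁ (f x) *
          L'.g b b₁ x' ^ q :=
        ht.change x x' (al x) (al x) b₁ b hxA' hfx.symm (hal x) (hal x) hb₁ hb
      have h3 : L.g (al x) (al x) x = 1 := by
        have h4 := hL.cocycle _ _ _ x (hal x) (hal x) (hal x)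
        have h5 := hL.ne_zero _ _ x (hal x) (hal x)
        field_simp at h4
        exact h4
      rw [h3, one_pow, one_mul] at h2
      show _ = L'.g b b₁ x' ^ (q * P) * _
      rw [h2, pow_mul]
      ring
  obtain ⟨σ', h1, h2⟩ := exists_secx hX' (IsLBx.pow hL' (q * P)) (IsAn.preimage (V := univ)
    (fun x => hsm'.holMap x) hsm'.an) hsm'.dim hsec₀
  refine ⟨σ', h1, fun x x' a b hx hxx' ha hb => ?_⟩
  rw [h2 b x' hb (by
    show f' x' ∉ A
    rw [hxx']; exact hx)]
  exact hs₀e x x' a b hx hxx' ha hb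

section base

variable {Y : Type} [TopologicalSpace Y] [ChartedSpace (Cm 4) Y] {k r : ℕ} {M : Fin k → Bd Y}
  {m c : Fin k → ℕ} {X : CSp} {v : Y → X.pt} {L : Fin k → Bd X.pt} {G : Fin r → Set Y}
  {n : Fin k → Fin r → ℤ}
  {t : ∀ e, (L e).ι → ((((Bd.can 4 Y).pow (m e)).mul (M e)).pow (c e)).ι → Y → ℂ}

/-- the comparison functions are holomorphic and have no zeros outside the `G l` -/
theorem cmpV_hol (h : IsCmpV v L (fun e => (((Bd.can 4 Y).pow (m e)).mul (M e)).pow (c e)) G n t)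
    {e : Fin k} {a : (L e).ι} {b : ((((Bd.can 4 Y).pow (m e)).mul (M e)).pow (c e)).ι} {y : Y}
    (hG : ∀ᶠ y' in 𝓝 y, y' ∉ ⋃ l, G l) (ha : v y ∈ (L e).U a)
    (hb : y ∈ ((((Bd.can 4 Y).pow (m e)).mul (M e)).pow (c e)).U b) {ch : Chart 4 Y}
    (hch : At ch y) : AnalyticAt ℂ (fun z => t e a b (ch.symm z)) (ch y) ∧ t e a b y ≠ 0 := by
  obtain ⟨ζ, hζ, h1⟩ := h.div y
  obtain ⟨u, hu, hu', h2⟩ := h1 e a b ha hb
  have hy := hG.self_of_nhds
  have hζy : ∀ l, ζ l y ≠ 0 := by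
    intro l
    rw [Ne, (hζ l).1.self_of_nhds]
    exact fun h3 => hy (mem_iUnion.2 ⟨l, h3⟩)
  have hcs : ContinuousAt ch.symm (ch y) := ch.continuousAt_symm (ch.map_source hch.2)
  have hy' : ch.symm (ch y) = y := ch.left_inv hch.2
  constructor
  · have h3 : AnalyticAt ℂ (fun z => u (ch.symm z) * ∏ l, ζ l (ch.symm z) ^ n e l) (ch y) := by
      refine (hu' ch hch).mul ?_
      refine Finset.analyticAt_fun_prod _ fun l _ => ?_
      exact ((hζ l).2 ch hch).1.zpow (by rw [hy']; exact hζy l)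
    refine h3.congr ?_
    have h4 : ∀ᶠ z in 𝓝 (ch y), ch.symm z ∉ ⋃ l, G l := by
      refine hcs.eventually (p := fun y' => y' ∉ ⋃ l, G l) ?_
      rw [hy']; exact hG
    have h5 : ∀ᶠ z in 𝓝 (ch y), ch.symm z ∉ ⋃ l, G l →
        t e a b (ch.symm z) = u (ch.symm z) * ∏ l, ζ l (ch.symm z) ^ n e l := by
      refine hcs.eventually (p := fun y' => y' ∉ ⋃ l, G l →
        t e a b y' = u y' * ∏ l, ζ l y' ^ n e l) ?_
      rw [hy']; exact h2
    filter_upwards [h4, h5] with z z1 z2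
    exact (z2 z1).symm
  · rw [h2.self_of_nhds hy]
    exact mul_ne_zero hu (Finset.prod_ne_zero_iff.2 fun l _ => zpow_ne_zero _ (hζy l))

/-- the section of `L e` defined by a section of `M e`, on the complement of the exceptional set -/
theorem exists_sec_base (hX : IsNormal 4 X) (hemb : IsOpenEmb X (⋃ l, G l)ᶜ v)
    (hsurj : Function.Surjective v) (hA : IsAn X univ (v '' ⋃ l, G l))
    (hd : DimLe X 2 (v '' ⋃ l, G l)) (hinj : ∀ y y', y ∉ ⋃ l, G l → v y' = v y → y' = y)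
    (h : IsCmpV v L (fun e => (((Bd.can 4 Y).pow (m e)).mul (M e)).pow (c e)) G n t)
    (hL : ∀ e, IsLBx X (L e)) (e : Fin k) (hm : m e = 0) (hM : IsLB 4 (M e))
    {sg : (M e).ι → Y → ℂ} (hsg : IsSec 4 (M e) sg) :
    ∃ σ : (L e).ι → X.pt → ℂ, IsSecx X univ (L e) σ ∧
      ∀ a ch b y, y ∉ ⋃ l, G l → v y ∈ (L e).U a → At ch y → y ∈ (M e).U b →
        σ a (v y) * t e a (ch, b) y = sg b y ^ c e := by
  have hl : ∀ y : Y, At (chartAt (Cm 4) y) y := fun y =>
    ⟨chart_mem_atlas _ y, mem_chart_source _ y⟩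
  choose be hbe using hM.cover
  set O : Set Y := (⋃ l, G l)ᶜ with hO
  have hGo : ∀ y ∈ O, ∀ᶠ y' in 𝓝 y, y' ∉ ⋃ l, G l := fun y hy => hemb.isOpen.mem_nhds hy
  have htne : ∀ a ch b y, y ∈ O → v y ∈ (L e).U a → At ch y → y ∈ (M e).U b →
      t e a (ch, b) y ≠ 0 := fun a ch b y hy ha hch hb =>
    (cmpV_hol h (hGo y hy) ha (show y ∈ ((((Bd.can 4 Y).pow (m e)).mul (M e)).pow (c e)).U (ch, b)
      from ⟨hch, hb⟩) hch).2
  -- independence of the frame of `M e`
  have hind : ∀ a ch b ch' b' y, y ∈ O → v y ∈ (L e).U a → At ch y → y ∈ (M e).U b →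
      At ch' y → y ∈ (M e).U b' →
      sg b y ^ c e / t e a (ch, b) y = sg b' y ^ c e / t e a (ch', b') y := by
    intro a ch b ch' b' y hy ha hch hb hch' hb'
    have h1 : t e a (ch', b') y = (L e).g a a (v y) * t e a (ch, b) y *
        ((((Bd.can 4 Y).pow (m e)).mul (M e)).pow (c e)).g (ch', b') (ch, b) y :=
      h.change y e a a (ch, b) (ch', b') hy ha ha ⟨hch, hb⟩ ⟨hch', hb'⟩
    have h2 : ((((Bd.can 4 Y).pow (m e)).mul (M e)).pow (c e)).g (ch', b') (ch, b) y =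
        (M e).g b' b y ^ c e := by
      show ((jacM ch' ch y).det ^ m e * (M e).g b' b y) ^ c e = _
      rw [hm, pow_zero, one_mul]
    have h3 : (L e).g a a (v y) = 1 := by
      have h4 := (hL e).cocycle a a a _ ha ha ha
      have h5 := (hL e).ne_zero a a _ ha ha
      field_simp at h4
      exact h4
    have h6 : sg b' y = (M e).g b' b y * sg b y := hsg.change b' b y hb' hb
    have h7 : (M e).g b' b y ≠ 0 := hM.ne_zero _ _ y hb' hb
    have h8 := htne a ch b y hy ha hch hb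
    rw [h1, h2, h3, one_mul, h6, mul_pow]
    field_simp
  have hY : Nonempty Y ∨ IsEmpty Y := (isEmpty_or_nonempty Y).symm
  rcases hY with ⟨⟨y₀⟩⟩ | hY
  swap
  · refine ⟨fun _ _ => 0, ⟨fun i x _ _ => ?_, fun _ _ x _ _ _ => by simp⟩, fun a ch b y => ?_⟩
    · obtain ⟨y, -⟩ := hsurj x
      exact (hY.false y).elim
    · exact (hY.false y).elim
  set g : X.pt → Y := hemb.inv y₀ with hg
  have hgv : ∀ y ∈ O, g (v y) = y := fun y hy => hemb.inv_apply y₀ hy
  set s₀ : (L e).ι → X.pt → ℂ := fun a x =>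
    sg (be (g x)) (g x) ^ c e / t e a (chartAt (Cm 4) (g x), be (g x)) (g x) with hs₀
  have hs₀e : ∀ a ch b y, y ∈ O → v y ∈ (L e).U a → At ch y → y ∈ (M e).U b →
      s₀ a (v y) = sg b y ^ c e / t e a (ch, b) y := by
    intro a ch b y hy ha hch hb
    simp only [hs₀, hgv y hy]
    exact hind a _ _ ch b y hy ha (hl y) (hbe y) hch hb
  have hvO : ∀ x, x ∉ v '' (⋃ l, G l) → ∃ y ∈ O, v y = x := by
    intro x hx
    obtain ⟨y, rfl⟩ := hsurj x
    exact ⟨y, fun hy => hx ⟨y, hy, rfl⟩, rfl⟩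
  have hsec₀ : IsSecx X (v '' (⋃ l, G l))ᶜ (L e) s₀ := by
    refine ⟨fun a x hx ha => ?_, fun a a₁ x hx ha ha₁ => ?_⟩
    · obtain ⟨y, hy, rfl⟩ := hvO x hx
      have hch := hl y
      rw [hemb.hol_iff hy hch]
      have e0 : ContinuousAt (chartAt (Cm 4) y).symm (chartAt (Cm 4) y y) :=
        (chartAt (Cm 4) y).continuousAt_symm ((chartAt (Cm 4) y).map_source hch.2)
      have e00 : (chartAt (Cm 4) y).symm (chartAt (Cm 4) y y) = y :=
        (chartAt (Cm 4) y).left_inv hch.2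
      have h1 : AnalyticAt ℂ (fun z => sg (be y) ((chartAt (Cm 4) y).symm z) ^ c e /
          t e a (chartAt (Cm 4) y, be y) ((chartAt (Cm 4) y).symm z)) (chartAt (Cm 4) y y) := by
        have h2 := cmpV_hol h (hGo y hy) ha (show y ∈ ((((Bd.can 4 Y).pow (m e)).mul (M e)).pow
          (c e)).U (chartAt (Cm 4) y, be y) from ⟨hch, hbe y⟩) hch
        refine AnalyticAt.div ?_ h2.1 ?_
        · have h3 := hsg.holo (be y) _ y hch (hbe y)
          exact h3.analyticAt.pow _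
        · rw [e00]; exact h2.2
      refine h1.congr ?_
      have e1 : ∀ᶠ z in 𝓝 (chartAt (Cm 4) y y), (chartAt (Cm 4) y).symm z ∈ O :=
        e0.eventually_mem (by rw [e00]; exact hemb.isOpen.mem_nhds hy)
      have e2 : ∀ᶠ z in 𝓝 (chartAt (Cm 4) y y), v ((chartAt (Cm 4) y).symm z) ∈ (L e).U a := by
        have h3 : ContinuousAt v ((chartAt (Cm 4) y).symm (chartAt (Cm 4) y y)) := by
          rw [e00]; exact hemb.continuousAt hy
        refine (ContinuousAt.comp (g := v) h3 e0).eventually_mem ?_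
        show (L e).U a ∈ 𝓝 (v ((chartAt (Cm 4) y).symm (chartAt (Cm 4) y y)))
        rw [e00]
        exact ((hL e).isOpen a).mem_nhds ha
      have e3 : ∀ᶠ z in 𝓝 (chartAt (Cm 4) y y), (chartAt (Cm 4) y).symm z ∈ (M e).U (be y) :=
        e0.eventually_mem (by rw [e00]; exact (hM.isOpen _).mem_nhds (hbe y))
      have e4 : ∀ᶠ z in 𝓝 (chartAt (Cm 4) y y), At (chartAt (Cm 4) y)
          ((chartAt (Cm 4) y).symm z) := by
        filter_upwards [(chartAt (Cm 4) y).open_target.mem_nhds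
          ((chartAt (Cm 4) y).map_source hch.2)] with z hz
        exact ⟨hch.1, (chartAt (Cm 4) y).map_target hz⟩
      filter_upwards [e1, e2, e3, e4] with z z1 z2 z3 z4
      exact (hs₀e a _ _ _ z1 z2 z4 z3).symm
    · obtain ⟨y, hy, rfl⟩ := hvO x hx
      rw [hs₀e a _ _ y hy ha (hl y) (hbe y), hs₀e a₁ _ _ y hy ha₁ (hl y) (hbe y)]
      have h1 : t e a (chartAt (Cm 4) y, be y) y = (L e).g a₁ a (v y) *
          t e a₁ (chartAt (Cm 4) y, be y) y *
          ((((Bd.can 4 Y).pow (m e)).mul (M e)).pow (c e)).g (chartAt (Cm 4) y, be y)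
            (chartAt (Cm 4) y, be y) y :=
        h.change y e a₁ a _ _ hy ha₁ ha ⟨hl y, hbe y⟩ ⟨hl y, hbe y⟩
      have h2 : ((((Bd.can 4 Y).pow (m e)).mul (M e)).pow (c e)).g (chartAt (Cm 4) y, be y)
          (chartAt (Cm 4) y, be y) y = 1 := by
        show ((jacM _ _ y).det ^ m e * (M e).g (be y) (be y) y) ^ c e = _
        have h4 := hM.cocycle (be y) (be y) (be y) y (hbe y) (hbe y) (hbe y)
        have h5 := hM.ne_zero (be y) (be y) y (hbe y) (hbe y)
        have h6 : (M e).g (be y) (be y) y = 1 := by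
          field_simp at h4
          exact h4
        rw [hm, pow_zero, one_mul, h6, one_pow]
      have h3 := (hL e).cocycle a a₁ a _ ha ha₁ ha
      have h4 : (L e).g a a (v y) = 1 := by
        have h5 := (hL e).cocycle a a a _ ha ha ha
        have h6 := (hL e).ne_zero a a _ ha ha
        field_simp at h5
        exact h5
      rw [h4] at h3
      have h7 := htne a₁ _ _ y hy ha₁ (hl y) (hbe y)
      have h8 := htne a _ _ y hy ha (hl y) (hbe y)
      have h9 : (L e).g a a₁ (v y) * t e a (chartAt (Cm 4) y, be y) y =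
          t e a₁ (chartAt (Cm 4) y, be y) y := by
        rw [h1, h2, mul_one, ← mul_assoc, h3, one_mul]
      rw [← h9]
      have h10 : (L e).g a a₁ (v y) ≠ 0 := (hL e).ne_zero _ _ _ ha ha₁
      field_simp
  obtain ⟨σ, h1, h2⟩ := exists_secx hX (hL e) hA hd hsec₀
  refine ⟨σ, h1, fun a ch b y hy ha hch hb => ?_⟩
  have hx : v y ∉ v '' (⋃ l, G l) := by
    rintro ⟨y', hy', h3⟩
    rw [hinj y y' hy h3] at hy'
    exact hy hy'
  rw [h2 a _ ha hx, hs₀e a ch b y hy ha hch hb]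
  have h8 := htne a _ _ y hy ha hch hb
  field_simp

end base

end Vale.Agent.P277.H371.C
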