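import Mathlib

/-!
# P277, T3: the counting argument
-/

open Set Filter

noncomputable section

namespace Vale.Agent.P277.H371.C

/-- For every `τ` of a finite set let `x τ j` be a sequence for which `a (x τ j)` is nondecreasing in
`j`. If for each `j ∈ B` there is a `τ` for which `a (x τ j)` increases at `j` and the new value of
`x τ` lies in a finite set, then `B` is finite. -/
theorem finite_bad {T V : Type*} [Finite T] (x : T → ℕ → V) (a : V → ℝ)
    (hmono : ∀ τ j, a (x τ j) ≤ a (x τ (j + 1))) (F : T → Set V) (hF : ∀ τ, (F τ).Finite)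
    (B : Set ℕ) (hB : ∀ j ∈ B, ∃ τ, a (x τ j) < a (x τ (j + 1)) ∧ x τ (j + 1) ∈ F τ) :
    B.Finite := by
  by_cases hBe : B.Nonempty
  swap
  · rw [not_nonempty_iff_eq_empty.1 hBe]; exact finite_empty
  obtain ⟨j₀, hj₀⟩ := hBe
  obtain ⟨τ₀, -⟩ := hB j₀ hj₀
  have hm : ∀ τ, Monotone fun j => a (x τ j) := fun τ => monotone_nat_of_le_succ (hmono τ)
  have h1 : ∀ j, ∃ τ, j ∈ B → a (x τ j) < a (x τ (j + 1)) ∧ x τ (j + 1) ∈ F τ := by
    intro j
    by_cases hj : j ∈ B
    · obtain ⟨τ, h⟩ := hB j hj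
      exact ⟨τ, fun _ => h⟩
    · exact ⟨τ₀, fun h => absurd h hj⟩
  choose θ hθ using h1
  refine Set.Finite.of_finite_image (f := fun j => (θ j, x (θ j) (j + 1))) ?_ ?_
  · refine Set.Finite.subset (s := ⋃ τ, (fun v => (τ, v)) '' F τ)
      (finite_iUnion fun τ => (hF τ).image _) ?_
    rintro _ ⟨j, hj, rfl⟩
    exact mem_iUnion.2 ⟨θ j, _, (hθ j hj).2, rfl⟩
  · have key : ∀ i ∈ B, ∀ j ∈ B, i < j → (θ i, x (θ i) (i + 1)) ≠ (θ j, x (θ j) (j + 1)) := by
      intro i hi j hj hij h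
      have e1 : θ i = θ j := congrArg Prod.fst h
      have e2 : x (θ i) (i + 1) = x (θ j) (j + 1) := congrArg Prod.snd h
      have e3 : a (x (θ j) (i + 1)) ≤ a (x (θ j) j) := hm (θ j) hij
      have e4 := (hθ j hj).1
      rw [← e2, e1] at e4
      exact absurd e4 (not_lt.2 e3)
    intro i hi j hj h
    rcases lt_trichotomy i j with hij | hij | hij
    · exact absurd h (key i hi j hj hij)
    · exact hij
    · exact absurd h.symm (key j hj i hi hij)

/-- There are finitely many vectors of natural numbers with `∑ e, w e * κ e ≤ C`, for positive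
weights. -/
theorem finite_vec {K : ℕ} {w : Fin K → ℝ} (hw : ∀ e, 0 < w e) (C : ℝ) :
    {κ : Fin K → ℕ | ∑ e, w e * κ e ≤ C}.Finite := by
  have h1 : ∀ e, ∃ N : ℕ, C / w e < N := fun e => exists_nat_gt _
  choose N hN using h1
  refine Set.Finite.subset (Set.Finite.pi (t := fun e => Set.Iic (N e)) fun e => finite_Iic _) ?_
  intro κ hκ e _
  have h2 : w e * κ e ≤ C := by
    refine le_trans (Finset.single_le_sum (f := fun e => w e * (κ e : ℝ)) (fun e _ =>
      mul_nonneg (hw e).le (Nat.cast_nonneg _)) (Finset.mem_univ e)) hκ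
  have h3 : (κ e : ℝ) ≤ C / w e := by
    rw [le_div_iff₀ (hw e)]
    linarith [mul_comm (w e) (κ e : ℝ)]
  have h4 : (κ e : ℝ) < N e := h3.trans_lt (hN e)
  exact Nat.le_of_lt (by exact_mod_cast h4)

end Vale.Agent.P277.H371.C
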