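import Vale.Agent.P277.H371.C.Int
import Vale.Agent.P277.H19.Xfer
import Vale.Agent.P277.H19.Pos1
import Vale.Agent.P277.H619.Pair2

/-!
# P277, T2c: integrals of forms which are smooth on an open set
-/

set_option maxSynthPendingDepth 3

open scoped Manifold ContDiff Topology ENNReal
open Vale.Agent.P272.K Vale.Agent.P285.H281.FD Vale.Agent.P267.H175 Set Filter MeasureTheory
open Vale.Agent.P267.H928.Int ContinuousAlternatingMap

noncomputable section

namespace Vale.Agent.P277.H371.C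

open Vale.Agent.P277 H619 H19

section den

variable {M : Type} [TopologicalSpace M] [ChartedSpace (Cm 4) M] [IsManifold 𝓘(ℂ, Cm 4) ω M]
  (P : Pou (Cm 4) M)

theorem isDens_dn (A : Fm 8 M) : IsDens M (dn A) := isDens_cf stdB _

theorem quo_dn (A : Fm 8 M) {e : OpenPartialHomeomorph M (Cm 4)} (he : e ∈ atlas (Cm 4) M) {y : M}
    (hy : y ∈ e.source) : P.quo (dn A) y = (P.w e (e y))⁻¹ • loc e A (e y) stdB := by
  have h3 := P.quo_symm (isDens_dn A) he (e.map_source hy)
  rw [e.left_inv hy] at h3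
  rw [h3]
  congr 1
  exact cf_eq e he _ (e.map_source hy)

theorem quo_dn_zero {A : Fm 8 M} {y : M} (h : A y = 0) : P.quo (dn A) y = 0 := by
  rw [quo_dn P A (chart_mem_atlas (Cm 4) y) (mem_chart_source (Cm 4) y), loc,
    (chartAt (Cm 4) y).left_inv (mem_chart_source (Cm 4) y), h]
  show (P.w _ _)⁻¹ • (0 : ℝ) = 0
  rw [smul_zero]

theorem continuousAt_dn {A : Fm 8 M} {y : M} (h : SmAt A y) : ContinuousAt (P.quo (dn A)) y := by
  have he := chart_mem_atlas (Cm 4) y
  have hy := mem_chart_source (Cm 4) y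
  refine P.continuousAt_quo (isDens_dn A) he hy ?_
  have h1 : ContinuousAt (fun z => loc (chartAt (Cm 4) y) A z stdB) (chartAt (Cm 4) y y) := by
    have h2 : ContinuousAt (loc (chartAt (Cm 4) y) A) (chartAt (Cm 4) y y) := h.continuousAt
    exact (ContinuousAlternatingMap.apply ℝ (Cm 4) ℝ
        (stdB : Fin 8 → Cm 4)).continuous.continuousAt.comp h2
  refine h1.congr ?_
  filter_upwards [(chartAt (Cm 4) y).open_target.mem_nhds ((chartAt (Cm 4) y).map_source hy)]
    with z hz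
  exact (cf_eq _ he _ hz).symm

variable [MeasurableSpace M] [BorelSpace M]

theorem measurable_dn {A : Fm 8 M} {W : Set M} (hW : IsOpen W) (h : ∀ y ∈ W, SmAt A y)
    (h0 : ∀ y ∉ W, A y = 0) : Measurable (P.quo (dn A)) := by
  classical
  have h1 : ContinuousOn (P.quo (dn A)) W := fun y hy =>
    (continuousAt_dn P (h y hy)).continuousWithinAt
  have h2 : Measurable (W.piecewise (P.quo (dn A)) fun _ => 0) :=
    h1.measurable_piecewise continuousOn_const hW.measurableSet
  have h3 : W.piecewise (P.quo (dn A)) (fun _ => 0) = P.quo (dn A) := by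
    funext y
    by_cases hy : y ∈ W
    · rw [piecewise_eq_of_mem _ _ _ hy]
    · rw [piecewise_eq_of_notMem _ _ _ hy, quo_dn_zero P (h0 y hy)]
  rwa [h3] at h2

theorem integrableOn_dn [T2Space M] {A : Fm 8 M} {K : Set M} (hK : IsCompact K)
    (h : ∀ y ∈ K, SmAt A y) : IntegrableOn (P.quo (dn A)) K (P.meas volume) :=
  ContinuousOn.integrableOn_compact hK fun y hy =>
    (continuousAt_dn P (h y hy)).continuousWithinAt

theorem integral_dn_pos [T2Space M] {A : Fm 8 M}
    (hi : Integrable (P.quo (dn A)) (P.meas volume))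
    (hn : ∀ y, ∀ e ∈ atlas (Cm 4) M, y ∈ e.source → 0 ≤ loc e A (e y) stdB) {y₁ : M}
    (hs : SmAt A y₁) {e₁ : OpenPartialHomeomorph M (Cm 4)} (he₁ : e₁ ∈ atlas (Cm 4) M)
    (hy₁ : y₁ ∈ e₁.source) (h1 : loc e₁ A (e₁ y₁) stdB ≠ 0) :
    0 < ∫ x, P.quo (dn A) x ∂(P.meas volume) := by
  have hop := isOpenPos_meas P
  have hnn : ∀ x, 0 ≤ P.quo (dn A) x := fun x => by
    rw [quo_dn P A (chart_mem_atlas (Cm 4) x) (mem_chart_source (Cm 4) x)]
    exact smul_nonneg (inv_nonneg.2 (P.w_pos (chart_mem_atlas _ x) (mem_chart_target _ x)).le)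
      (hn x _ (chart_mem_atlas _ x) (mem_chart_source _ x))
  have hp : 0 < P.quo (dn A) y₁ := by
    refine lt_of_le_of_ne (hnn y₁) (Ne.symm ?_)
    rw [quo_dn P A he₁ hy₁]
    exact smul_ne_zero (inv_ne_zero (P.w_pos he₁ (e₁.map_source hy₁)).ne') h1
  rw [integral_pos_iff_support_of_nonneg hnn hi]
  have h2 : {x | 0 < P.quo (dn A) x} ∈ 𝓝 y₁ := (continuousAt_dn P hs).eventually_const_lt hp
  obtain ⟨U, hU, hUo, hyU⟩ := mem_nhds_iff.1 h2
  refine lt_of_lt_of_le (hUo.measure_pos (P.meas volume) ⟨y₁, hyU⟩) (measure_mono fun x hx => ?_)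
  exact (hU hx).ne'

end den

section int

variable {M : Type} [TopologicalSpace M] [T2Space M] [SecondCountableTopology M]
  [ChartedSpace (Cm 4) M] [IsManifold 𝓘(ℂ, Cm 4) ω M]

/-- `A` is integrable. -/
def Intg (A : Fm 8 M) : Prop :=
  letI : MeasurableSpace M := borel M
  haveI : BorelSpace M := ⟨rfl⟩
  ∀ P : Pou (Cm 4) M, Integrable (P.quo (dn A)) (P.meas volume)

theorem intM_add' {A B : Fm 8 M} (hA : Intg A) (hB : Intg B) :
    intM M (A + B) = intM M A + intM M B := by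
  letI : MeasurableSpace M := borel M
  haveI : BorelSpace M := ⟨rfl⟩
  haveI : LocallyCompactSpace M := ChartedSpace.locallyCompactSpace (Cm 4) M
  set P : Pou (Cm 4) M := (exists_pou (E := Cm 4) (M := M)).some with hP
  have e1 : dn (A + B) = dn A + dn B := by
    funext e z
    show cf stdB e _ z = _
    simp only [cf, Pi.add_apply]
    have := pull_add e.symm (show Form (Cm 4) ℝ 8 M from A) (show Form (Cm 4) ℝ 8 M from B) z
    have h2 := congrArg (fun f : Cm 4 [⋀^Fin 8]→L[ℝ] ℝ => f stdB) this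
    exact h2
  show P.integ volume (dn (A + B)) = P.integ volume (dn A) + P.integ volume (dn B)
  rw [e1]
  exact P.integ_add volume (hA P) (hB P)

theorem intM_pos' {A : Fm 8 M} (hA : Intg A)
    (hn : ∀ y, ∀ e ∈ atlas (Cm 4) M, y ∈ e.source → 0 ≤ loc e A (e y) stdB) {y₁ : M}
    (hs : SmAt A y₁) {e₁ : OpenPartialHomeomorph M (Cm 4)} (he₁ : e₁ ∈ atlas (Cm 4) M)
    (hy₁ : y₁ ∈ e₁.source) (h1 : loc e₁ A (e₁ y₁) stdB ≠ 0) : 0 < intM M A := by
  letI : MeasurableSpace M := borel M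
  haveI : BorelSpace M := ⟨rfl⟩
  obtain ⟨P, hP⟩ := intM_eq M
  rw [hP]
  exact integral_dn_pos P (hA P) hn hs he₁ hy₁ h1

theorem intg_of_cpt {A : Fm 8 M} {K : Set M} (hK : IsCompact K) (h : ∀ y, SmAt A y)
    (h0 : ∀ y ∉ K, A y = 0) : Intg A := by
  letI : MeasurableSpace M := borel M
  haveI : BorelSpace M := ⟨rfl⟩
  intro P
  have h1 := integrableOn_dn P hK fun y _ => h y
  refine (integrableOn_iff_integrable_of_support_subset fun x hx => ?_).1 h1
  by_contra h2
  exact hx (quo_dn_zero P (h0 x h2))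

end int

section nat

variable {M : Type} [TopologicalSpace M] [T2Space M] [SecondCountableTopology M]
  [ChartedSpace (Cm 4) M] [IsManifold 𝓘(ℂ, Cm 4) ω M]
variable {M' : Type} [TopologicalSpace M'] [T2Space M'] [SecondCountableTopology M']
  [ChartedSpace (Cm 4) M'] [IsManifold 𝓘(ℂ, Cm 4) ω M']

omit [T2Space M] [SecondCountableTopology M] [T2Space M'] [SecondCountableTopology M'] in
theorem dn_rel {φ : M → M'} {y : M} {A : Fm 8 M} {A' : Fm 8 M'}
    {e : OpenPartialHomeomorph M (Cm 4)} (he : e ∈ atlas (Cm 4) M)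
    {e' : OpenPartialHomeomorph M' (Cm 4)} (he' : e' ∈ atlas (Cm 4) M') (hye : y ∈ e.source)
    (hye' : φ y ∈ e'.source) (hsm : SmM (Cm 4) φ y)
    (han : AnalyticAt ℂ (fun z => e' (φ (e.symm z))) (e y)) (hA : A y = pb φ A' y) :
    dn A e (e y) = |(fderiv ℝ (fun z => e' (φ (e.symm z))) (e y)).det| • dn A' e' (e' (φ y)) := by
  have hdet : 0 ≤ (fderiv ℝ (fun z => e' (φ (e.symm z))) (e y)).det := by
    have h5 : fderiv ℝ (fun z => e' (φ (e.symm z))) (e y) =
        (fderiv ℂ (fun z => e' (φ (e.symm z))) (e y)).restrictScalars ℝ :=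
      han.differentiableAt.fderiv_restrictScalars ℝ
    rw [h5, det_real]
    exact Complex.normSq_nonneg _
  rw [abs_of_nonneg hdet]
  show cf stdB e (show Form (Cm 4) ℝ 8 M from A) (e y) =
    _ • cf stdB e' (show Form (Cm 4) ℝ 8 M' from A') (e' (φ y))
  rw [cf_eq e he _ (e.map_source hye), cf_eq e' he' _ (e'.map_source hye')]
  have h5 : loc e A (e y) = loc e (pb φ A') (e y) := by
    rw [loc, loc, e.left_inv hye, hA]
  rw [h5, loc_pb he he' _ hsm hye hye', top_comp]

/-- integrability and the integral of forms which correspond to each other outside null sets -/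
theorem int_nat {U : Set M} {U' : Set M'} (hU : IsOpen U) (hU' : IsOpen U') {φ : M → M'}
    {ψ : M' → M} (hφ : ContinuousOn φ U) (hψ : ContinuousOn ψ U') (h1 : MapsTo φ U U')
    (h2 : MapsTo ψ U' U) (h3 : LeftInvOn ψ φ U) (h4 : RightInvOn ψ φ U')
    (hol : ∀ y ∈ U, ∀ (e : Chart 4 M) (e' : Chart 4 M'), At e y → At e' (φ y) →
      AnalyticAt ℂ (fun z => e' (φ (e.symm z))) (e y)) {A : Fm 8 M} {A' : Fm 8 M'}
    {W : Set M} (hW : IsOpen W) (hA : ∀ y ∈ W, SmAt A y) (hA0 : ∀ y ∉ W, A y = 0)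
    (hA' : ∀ y, SmAt A' y) (hAU : ∀ y ∈ U, A y = pb φ A' y) :
    (letI : MeasurableSpace M := borel M
     haveI : BorelSpace M := ⟨rfl⟩
     letI : MeasurableSpace M' := borel M'
     haveI : BorelSpace M' := ⟨rfl⟩
     ∀ (P : Pou (Cm 4) M) (P' : Pou (Cm 4) M'),
      ∫⁻ x in U, ‖P.quo (dn A) x‖ₑ ∂(P.meas volume) =
        ∫⁻ x in U', ‖P'.quo (dn A') x‖ₑ ∂(P'.meas volume) ∧
      (Integrable (P.quo (dn A)) (P.meas volume) → Integrable (P'.quo (dn A')) (P'.meas volume) →
        ∫ x in U, P.quo (dn A) x ∂(P.meas volume) =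
          ∫ x in U', P'.quo (dn A') x ∂(P'.meas volume))) := by
  intro P P'
  letI : MeasurableSpace M := borel M
  haveI : BorelSpace M := ⟨rfl⟩
  letI : MeasurableSpace M' := borel M'
  haveI : BorelSpace M' := ⟨rfl⟩
  have key : ∀ y ∈ U, ∀ e ∈ atlas (Cm 4) M, ∀ e' ∈ atlas (Cm 4) M', y ∈ e.source →
      φ y ∈ e'.source → DifferentiableAt ℝ (fun z => e' (φ (e.symm z))) (e y) ∧
      dn A e (e y) = |(fderiv ℝ (fun z => e' (φ (e.symm z))) (e y)).det| •
        dn A' e' (e' (φ y)) := by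
    intro y hy e he e' he' hye hye'
    have hsm : SmM (Cm 4) φ y := smM_of hU hφ hol hy
    have han := hol y hy e e' ⟨he, hye⟩ ⟨he', hye'⟩
    exact ⟨han.differentiableAt.restrictScalars ℝ, dn_rel he he' hye hye' hsm han (hAU y hy)⟩
  constructor
  · exact nat_lint volume P P' (isDens_dn A) (isDens_dn A') (measurable_dn P hW hA hA0)
      (measurable_dn P' isOpen_univ (fun y _ => hA' y) fun y hy => absurd (mem_univ y) hy)
      hU hU' hφ hψ h1 h2 h3 h4 key
  · intro hi hi'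
    exact nat_dens volume P P' (isDens_dn A) (isDens_dn A') hi hi' hU hU' hφ hψ h1 h2 h3 h4 key

end nat

end Vale.Agent.P277.H371.C
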