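import Vale.Agent.P277.H371.C.Fin
import Vale.Agent.P277.H615.R.FlipD

/-!
# P277, Theorem T2R: flips of NQC generalized canonical pairs, from P7R and REGR
-/

set_option maxSynthPendingDepth 3

open scoped Manifold ContDiff Topology
open Vale.Agent.P272.K Vale.Agent.P285.H281.FD Vale.Agent.P267.H175 Set Filter

noncomputable section

namespace Vale.Agent.P277.H371.C

open Vale.Agent.P277 H619 H19 H615

/-- There is no infinite sequence of flips, if the flipped loci are generically contained in the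
regular loci and at most `b` of them have dimension two. -/
theorem no_seq {Y : Type} [TopologicalSpace Y] [T2Space Y] [CompactSpace Y]
    [ChartedSpace (Cm 4) Y] [IsManifold 𝓘(ℂ, Cm 4) ω Y] (X Z : ℕ → CSp) (p : Y → (X 0).pt)
    (O : Set Y) (hp : IsRes Y (X 0) p O) (f : ∀ j, (X j).pt → (Z j).pt)
    (f' : ∀ j, (X (j + 1)).pt → (Z j).pt) (A : ∀ j, Set (Z j).pt)
    (hflip : ∀ j, ∃ (L : Bd (X j).pt) (L' : Bd (X (j + 1)).pt),
      IsFlip (X j) (Z j) (X (j + 1)) (f j) (f' j) (A j) L L')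
    (hreg : ∀ j, DimLe (X (j + 1)) 1 {x | x ∈ f' j ⁻¹' A j ∧ ¬ IsReg 4 (X (j + 1)) x})
    (b : ℕ) (hb : ∀ N : ℕ, {j | j < N ∧ ¬ DimLe (X (j + 1)) 1 (f' j ⁻¹' A j)}.ncard ≤ b) :
    False := by
  choose L L' hL using hflip
  have hinf := rinf_c X Z p O hp f f' A L L' hL hreg
  set B : Set ℕ := {j | ¬ DimLe (X (j + 1)) 1 (f' j ⁻¹' A j)} with hB
  have hBinf : B.Infinite := by
    refine Set.infinite_of_forall_exists_gt fun a => ?_
    obtain ⟨j, hj, hj'⟩ := hinf (a + 1)
    exact ⟨j, hj', hj⟩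
  obtain ⟨t, htB, htc⟩ := hBinf.exists_subset_card_eq (b + 1)
  set N : ℕ := t.sup id + 1 with hN
  have h1 := hb N
  have h2 : (t : Set ℕ) ⊆ {j | j < N ∧ ¬ DimLe (X (j + 1)) 1 (f' j ⁻¹' A j)} := by
    intro j hj
    refine ⟨?_, htB hj⟩
    have h3 : id j ≤ t.sup id := Finset.le_sup (f := id) (Finset.mem_coe.1 hj)
    simp only [id] at h3
    omega
  have h3 := ncard_le_ncard h2 ((Set.finite_lt_nat N).subset fun i hi => hi.1)
  rw [ncard_coe_finset, htc] at h3
  omega

/-- **Theorem T2R** from P7R and REGR -/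
theorem stT2R_of (h7 : T2.StP7R) (hR : T2.StRegR) : T2.StT2R := by
  intro Y _ _ _ _ _ χ hχ k M hM hnef m hm ρ hρ hsum W X Z r v p P G hres f f' A L c hc hn hflip
  refine no_seq X Z (fun y => p (v y)) (⋃ l, G l)ᶜ (isRes_top hres) f f' (fun j => Amin (f j))
    (fun j => ?_) (fun j => ?_) (r * {κ : Fin k → ℕ | ∑ e, ρ e * κ e < 1}.ncard) fun N => ?_
  · obtain ⟨p, q, s, d, a, -, -, h, -⟩ := exists_flipD (hflip j) (hc j)
    exact ⟨_, _, h.flip none⟩
  · exact hR Y χ hχ k M hM hnef m hm ρ hρ hsum (j + 1) W X Z (hflip 0).normal r v p P G hres f f'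
      A L c hc hn (fun j _ => hflip j) j (Nat.lt_succ_self j)
  · exact h7 Y χ hχ k M hM hnef m hm ρ hρ hsum N W X Z (hflip 0).normal r v p P G hres f f'
      A L c hc hn fun j _ => hflip j

end Vale.Agent.P277.H371.C
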