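import Vale.Agent.P277.H19.NatD

/-!
# P277, T2c: naturality of the integral of the absolute value of densities
-/

open Module Topology Set Function MeasureTheory Measure
open scoped ContDiff Manifold ENNReal
open Vale.Agent.P267.H928.Int

noncomputable section

namespace Vale.Agent.P277.H371.C

open Vale.Agent.P277.H19

variable {E : Type*} [NormedAddCommGroup E] [NormedSpace ℝ E] [FiniteDimensional ℝ E]
  [MeasurableSpace E] [BorelSpace E] (μ : Measure E)
variable {M : Type*} [TopologicalSpace M] [ChartedSpace E M] [IsManifold 𝓘(ℝ, E) ∞ M]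
  [PosAtlas E M] [MeasurableSpace M] [BorelSpace M] [SecondCountableTopology M] (P : Pou E M)
variable {M' : Type*} [TopologicalSpace M'] [ChartedSpace E M'] [IsManifold 𝓘(ℝ, E) ∞ M']
  [PosAtlas E M'] [MeasurableSpace M'] [BorelSpace M'] [SecondCountableTopology M']
  (P' : Pou E M')

omit [SecondCountableTopology M] in
/-- The chart formula for the absolute value on Borel subsets of the chart domain. -/
theorem setLIntegral_quo [μ.IsAddHaarMeasure] {e : OpenPartialHomeomorph M E} (he : e ∈ atlas E M)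
    {c : OpenPartialHomeomorph M E → E → ℝ} (hc : IsDens M c)
    (hm : Measurable (P.quo c)) {B : Set M} (hB : MeasurableSet B)
    (hBe : B ⊆ e.source) :
    ∫⁻ x in B, ‖P.quo c x‖ₑ ∂(P.meas μ) = ∫⁻ z in e '' B, ‖c e z‖ₑ ∂μ := by
  rw [← lintegral_indicator hB, P.lintegral_meas_chart μ he (hm.enorm.indicator hB) fun x hx =>
    indicator_of_notMem (fun h => hx (hBe h)) _]
  have hI : e '' B ⊆ e.target := by
    rintro _ ⟨x, hx, rfl⟩; exact e.map_source (hBe hx)
  have h1 : EqOn (fun z => ENNReal.ofReal (P.w e z) *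
      B.indicator (fun x => ‖P.quo c x‖ₑ) (e.symm z)) ((e '' B).indicator fun z => ‖c e z‖ₑ)
      e.target := by
    intro z hz
    by_cases hzB : e.symm z ∈ B
    · have hz' : z ∈ e '' B := ⟨_, hzB, e.right_inv hz⟩
      simp only [indicator_of_mem hzB, indicator_of_mem hz']
      rw [← P.w_smul_quo hc he hz, smul_eq_mul, enorm_mul,
        Real.enorm_of_nonneg (P.w_pos he hz).le]
    · have hz' : z ∉ e '' B := by
        rintro ⟨x, hx, rfl⟩
        exact hzB (by rw [e.left_inv (hBe hx)]; exact hx)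
      simp only [indicator_of_notMem hzB, indicator_of_notMem hz', mul_zero]
  rw [setLIntegral_congr_fun e.open_target.measurableSet h1,
    setLIntegral_indicator (measurableSet_chart_image hB hBe), inter_eq_self_of_subset_left hI]

/-- Naturality of the integral of the absolute value of densities. -/
theorem nat_lint [μ.IsAddHaarMeasure] {c : OpenPartialHomeomorph M E → E → ℝ}
    {c' : OpenPartialHomeomorph M' E → E → ℝ} (hc : IsDens M c) (hc' : IsDens M' c')
    (hq : Measurable (P.quo c)) (hq' : Measurable (P'.quo c'))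
    {U : Set M} {U' : Set M'} (hU : IsOpen U) (hU' : IsOpen U') {φ : M → M'} {ψ : M' → M}
    (hφ : ContinuousOn φ U) (hψ : ContinuousOn ψ U') (h1 : MapsTo φ U U') (h2 : MapsTo ψ U' U)
    (h3 : LeftInvOn ψ φ U) (h4 : RightInvOn ψ φ U')
    (hd : ∀ y ∈ U, ∀ e ∈ atlas E M, ∀ e' ∈ atlas E M', y ∈ e.source → φ y ∈ e'.source →
      DifferentiableAt ℝ (fun z => e' (φ (e.symm z))) (e y) ∧
      c e (e y) = |(fderiv ℝ (fun z => e' (φ (e.symm z))) (e y)).det| • c' e' (e' (φ y))) :
    ∫⁻ x in U, ‖P.quo c x‖ₑ ∂(P.meas μ) = ∫⁻ x in U', ‖P'.quo c' x‖ₑ ∂(P'.meas μ) := by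
  classical
  -- countable decomposition
  set N : U → Set M := fun y => U ∩ (chartAt E y.1).source ∩
    (U ∩ φ ⁻¹' (chartAt E (φ y.1)).source) with hN
  have hNo : ∀ y, IsOpen (N y) := fun y =>
    (hU.inter (chartAt E y.1).open_source).inter
      (hφ.isOpen_inter_preimage hU (chartAt E (φ y.1)).open_source)
  have hmem : ∀ y : U, y.1 ∈ N y := fun y =>
    ⟨⟨y.2, mem_chart_source E _⟩, y.2, mem_chart_source E (φ y.1)⟩
  have hNU : ∀ y, N y ⊆ U := fun y x hx => hx.1.1
  obtain ⟨T, hT, hTcov⟩ := TopologicalSpace.isOpen_iUnion_countable N hNo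
  have hcov : (⋃ y ∈ T, N y) = U := by
    refine hTcov.trans (Subset.antisymm (iUnion_subset hNU) fun x hx => ?_)
    exact mem_iUnion.2 ⟨⟨x, hx⟩, hmem ⟨x, hx⟩⟩
  have hTc : Countable T := hT
  rcases isEmpty_or_nonempty T with hem | hne
  · have hUe : U = ∅ := by
      rw [← hcov]
      ext x
      simp only [mem_iUnion, mem_empty_iff_false, iff_false, not_exists]
      intro y hy
      exact (hem.false ⟨y, hy⟩).elim
    have hUe' : U' = ∅ := by
      rw [eq_empty_iff_forall_notMem]
      intro x hx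
      have := h2 hx
      rw [hUe] at this
      exact this
    rw [hUe, hUe']
    simp
  obtain ⟨en, hen⟩ := exists_surjective_nat T
  set B : ℕ → Set M := disjointed fun n => N (en n) with hBdef
  have hBm : ∀ n, MeasurableSet (B n) := fun n =>
    MeasurableSet.disjointed (fun n => (hNo _).measurableSet) n
  have hBd : Pairwise (Function.onFun Disjoint B) := disjoint_disjointed _
  have hBN : ∀ n, B n ⊆ N (en n) := fun n => disjointed_subset _ n
  have hBU : ∀ n, B n ⊆ U := fun n => (hBN n).trans (hNU _)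
  have hBcov : (⋃ n, B n) = U := by
    refine iUnion_disjointed.trans (Eq.trans ?_ hcov)
    ext z
    simp only [mem_iUnion]
    constructor
    · rintro ⟨n, hn⟩; exact ⟨en n, (en n).2, hn⟩
    · rintro ⟨p, hp, hz⟩
      obtain ⟨n, hn⟩ := hen ⟨p, hp⟩
      exact ⟨n, by rw [hn]; exact hz⟩
  -- images
  set B' : ℕ → Set M' := fun n => U' ∩ ψ ⁻¹' B n with hB'def
  have hB'm : ∀ n, MeasurableSet (B' n) := fun n =>
    measurableSet_inter_preimage hψ hU'.measurableSet (hBm n)
  have hB'd : Pairwise (Function.onFun Disjoint B') := by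
    intro n m hnm
    rw [Function.onFun, disjoint_left]
    rintro x ⟨-, hx⟩ ⟨-, hx'⟩
    exact disjoint_left.1 (hBd hnm) hx hx'
  have hB'cov : (⋃ n, B' n) = U' := by
    ext x
    simp only [mem_iUnion]
    constructor
    · rintro ⟨n, hn⟩; exact hn.1
    · intro hx
      have h5 : ψ x ∈ ⋃ n, B n := by rw [hBcov]; exact h2 hx
      obtain ⟨n, hn⟩ := mem_iUnion.1 h5
      exact ⟨n, hx, hn⟩
  have hB'im : ∀ n, B' n = φ '' B n := by
    intro n
    ext x
    constructor
    · rintro ⟨hx, hx'⟩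
      exact ⟨ψ x, hx', h4 hx⟩
    · rintro ⟨y, hy, rfl⟩
      exact ⟨h1 (hBU n hy), by rw [mem_preimage, h3 (hBU n hy)]; exact hy⟩
  have hS := lintegral_iUnion (μ := P.meas μ) hBm hBd fun x => ‖P.quo c x‖ₑ
  have hS' := lintegral_iUnion (μ := P'.meas μ) hB'm hB'd fun x => ‖P'.quo c' x‖ₑ
  rw [hBcov] at hS
  rw [hB'cov] at hS'
  rw [hS, hS']
  refine tsum_congr fun n => ?_
  set e := chartAt E (en n).1.1 with he
  set e' := chartAt E (φ (en n).1.1) with he'
  have hBe : B n ⊆ e.source := fun x hx => (hBN n hx).1.2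
  have hBe' : ∀ x ∈ B n, φ x ∈ e'.source := fun x hx => (hBN n hx).2.2
  have hB'e : B' n ⊆ e'.source := by
    rw [hB'im n]
    rintro _ ⟨x, hx, rfl⟩
    exact hBe' x hx
  rw [setLIntegral_quo μ P (chart_mem_atlas E _) hc hq (hBm n) hBe,
    setLIntegral_quo μ P' (chart_mem_atlas E _) hc' hq' (hB'm n) hB'e]
  set Φ : E → E := fun z => e' (φ (e.symm z)) with hΦ
  have himg : e' '' B' n = Φ '' (e '' B n) := by
    rw [hB'im n, image_image, image_image]
    refine image_congr fun x hx => ?_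
    simp only [hΦ]
    rw [e.left_inv (hBe hx)]
  have hBem : MeasurableSet (e '' B n) := measurableSet_chart_image (hBm n) hBe
  have hΦd : ∀ z ∈ e '' B n, HasFDerivWithinAt Φ (fderiv ℝ Φ z) (e '' B n) z := by
    rintro _ ⟨x, hx, rfl⟩
    exact (hd x (hBU n hx) e (chart_mem_atlas E _) e' (chart_mem_atlas E _) (hBe hx)
      (hBe' x hx)).1.hasFDerivAt.hasFDerivWithinAt
  have hΦi : InjOn Φ (e '' B n) := by
    rintro _ ⟨x, hx, rfl⟩ _ ⟨y, hy, rfl⟩ hxy
    simp only [hΦ] at hxy
    rw [e.left_inv (hBe hx), e.left_inv (hBe hy)] at hxy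
    have h5 := e'.injOn (hBe' x hx) (hBe' y hy) hxy
    rw [← h3 (hBU n hx), ← h3 (hBU n hy), h5]
  rw [himg, lintegral_image_eq_lintegral_abs_det_fderiv_mul μ hBem hΦd hΦi]
  refine setLIntegral_congr_fun hBem ?_
  rintro _ ⟨x, hx, rfl⟩
  have h5 := (hd x (hBU n hx) e (chart_mem_atlas E _) e' (chart_mem_atlas E _) (hBe hx)
      (hBe' x hx)).2
  simp only [hΦ] at h5 ⊢
  rw [e.left_inv (hBe hx), h5, smul_eq_mul, enorm_mul, Real.enorm_of_nonneg (abs_nonneg _)]

end Vale.Agent.P277.H371.C
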