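import Vale.Agent.P277.H371.C.Tr
import Vale.Agent.P277.H29.M2i
import Vale.Agent.P277.H762.L1
import Vale.Agent.P277.H762.L3

/-!
# P277, T2c: the rank of the pairing of `X`-forms and a closed subset of `E`
-/

set_option maxSynthPendingDepth 3

open scoped Manifold ContDiff Topology
open Vale.Agent.P272.K Vale.Agent.P285.H281.FD Vale.Agent.P267.H175 Set Filter MeasureTheory
open Vale.Agent.P267.H928.Int ContinuousAlternatingMap

noncomputable section

namespace Vale.Agent.P277.H371.C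

open Vale.Agent.P277 H619 H19 H615

variable {Y : Type} [TopologicalSpace Y] [T2Space Y] [SecondCountableTopology Y]
  [ChartedSpace (Cm 4) Y] [IsManifold 𝓘(ℂ, Cm 4) ω Y]
  {X : CSp} {W O : Set Y} {v : Y → X.pt} {E : Set X.pt} {a b : Fm 4 Y} {c d : Fm 4 (RegT X)}

/-- The rank of the pairing of `X`-forms is at most `ρ`. -/
def RankX (X : CSp) (W : Set Y) (v : Y → X.pt) (E : Set X.pt) (ρ : ℕ) : Prop :=
  ∀ (n : ℕ) (a b : Fin n → Fm 4 Y), (∀ i, ∃ c, XF X W v E (a i) c) →
    (∀ i, ∃ c, XF X W v E (b i) c) → (Matrix.of fun i j => pr Y (a i) (b j)).rank ≤ ρ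

/-- `X`-forms with support disjoint from `S` -/
def XFS (X : CSp) (W : Set Y) (v : Y → X.pt) (E S : Set X.pt) (a : Fm 4 Y) (c : Fm 4 (RegT X)) :
    Prop :=
  XF X W v E a c ∧ ∃ N, IsClosed N ∧ (∀ x ∈ N, x ∈ E → IsReg 4 X x) ∧
    (∀ y ∈ W, v y ∉ N → a y = 0) ∧ (∀ r : RegT X, r.val ∉ N → c r = 0) ∧ Disjoint N S

/-- The rank of the pairing of `X`-forms with support disjoint from `S` is at most `ρ`. -/
def RankXS (X : CSp) (W : Set Y) (v : Y → X.pt) (E S : Set X.pt) (ρ : ℕ) : Prop :=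
  ∀ (n : ℕ) (a b : Fin n → Fm 4 Y), (∀ i, ∃ c, XFS X W v E S (a i) c) →
    (∀ i, ∃ c, XFS X W v E S (b i) c) → (Matrix.of fun i j => pr Y (a i) (b j)).rank ≤ ρ

theorem XF.pr_sum_left (hM : PMod X W O v E) (hne : Nonempty (RegT X)) {n : ℕ}
    {a : Fin n → Fm 4 Y} {c : Fin n → Fm 4 (RegT X)} (ha : ∀ i, XF X W v E (a i) (c i))
    (hb : XF X W v E b d) (t : Fin n → ℝ) :
    pr Y (∑ i, t i • a i) b = ∑ i, t i * pr Y (a i) b := by
  classical
  have h1 : ∀ s : Finset (Fin n), pr Y (∑ i ∈ s, t i • a i) b = ∑ i ∈ s, t i * pr Y (a i) b ∧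
      ∃ c', XF X W v E (∑ i ∈ s, t i • a i) c' := by
    intro s
    induction s using Finset.induction_on with
    | empty =>
      refine ⟨?_, 0, XF.zero⟩
      rw [Finset.sum_empty, Finset.sum_empty]
      exact pr_zero_left (stPair Y) b
    | insert i s hi ih =>
      obtain ⟨ih, c', hc'⟩ := ih
      rw [Finset.sum_insert hi, Finset.sum_insert hi]
      refine ⟨?_, _, ((ha i).smul (t i)).add hc'⟩
      rw [XF.pr_add hM ((ha i).smul (t i)) hc' hb hne, (stPair Y).smul, ih]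
  exact (h1 Finset.univ).1

theorem XF.sub (ha : XF X W v E a c) (hb : XF X W v E b d) : XF X W v E (a - b) (c - d) := by
  have h1 : a - b = a + (-1 : ℝ) • b := by
    funext y
    show a y - b y = a y + (-1 : ℝ) • b y
    module
  have h2 : c - d = c + (-1 : ℝ) • d := by
    funext y
    show c y - d y = c y + (-1 : ℝ) • d y
    module
  rw [h1, h2]
  exact ha.add (hb.smul _)

theorem XF.pr_sub_exact (hM : PMod X W O v E) (hne : Nonempty (RegT X))
    {h : Y → RegT X} (hh : IsLft X W v h) {γ : Fm 3 (RegT X)} (hγ : SC γ)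
    (ha : XF X W v E a c) (hb : XF X W v E b d) :
    pr Y (a - pz (WR X W v) h (dF γ)) b = pr Y a b := by
  have h1 : a - pz (WR X W v) h (dF γ) = a + (-1 : ℝ) • pz (WR X W v) h (dF γ) := by
    funext y
    show a y - _ = a y + (-1 : ℝ) • pz (WR X W v) h (dF γ) y
    module
  rw [h1, XF.pr_add hM ha ((XF.exact hM hh hγ).smul _) hb hne, (stPair Y).smul,
    XF.stokes hM hh hγ hb hne, mul_zero, add_zero]

/-- forms which vanish near `S` -/
theorem XF.xfs (hM : PMod X W O v E) (hne : Nonempty (RegT X)) (ha : XF X W v E a c)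
    {S : Set X.pt} (hSE : S ⊆ E) (h0 : ∀ᶠ r in 𝓝ˢ (RegT.val ⁻¹' S), c r = 0) :
    XFS X W v E S a c := by
  obtain ⟨y0⟩ := hne
  obtain ⟨h, hh⟩ := exists_lft (X := X) W v y0
  refine ⟨ha, ?_⟩
  obtain ⟨N, hN, hNE, hNa, hNc⟩ := ha.supp
  obtain ⟨V, hV, hSV, hV0⟩ := eventually_nhdsSet_iff_exists.1 h0
  have hV' : IsOpen (RegT.val '' V) := RegT.isOpenEmbedding_val.isOpenMap _ hV
  refine ⟨N \ RegT.val '' V, hN.sdiff hV', fun x hx => hNE x hx.1, fun y hy hyN => ?_,
    fun r hr => ?_, ?_⟩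
  · by_cases h1 : v y ∈ N
    · have h2 : v y ∈ RegT.val '' V := by
        by_contra h3
        exact hyN ⟨h1, h3⟩
      obtain ⟨r, hr, hry⟩ := h2
      have h3 : IsReg 4 X (v y) := by rw [← hry]; exact r.2
      have h4 : h y = r := RegT.val_injective ((hh y hy h3).trans hry.symm)
      rw [ha.comp h hh y hy h3, pb, h4, hV0 r hr]
      rfl
    · exact hNa y hy h1
  · by_cases h1 : r.val ∈ N
    · have h2 : r.val ∈ RegT.val '' V := by
        by_contra h3
        exact hr ⟨h1, h3⟩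
      obtain ⟨r', hr', hrr⟩ := h2
      rw [← RegT.val_injective hrr]
      exact hV0 r' hr'
    · exact hNc r h1
  · rw [Set.disjoint_left]
    rintro x ⟨hxN, hxV⟩ hxS
    exact hxV ⟨⟨x, hNE x hxN (hSE hxS)⟩, hSV hxS, rfl⟩

/-- **(STEP)** -/
theorem stepX (hM : PMod X W O v E) (hne : Nonempty (RegT X)) {S T : Set X.pt} (hS : IsClosed S)
    (hT : IsClosed T) (hTS : T ⊆ S) (hSE : S ⊆ E)
    (h3 : Negl (RegT X) 3 (RegT.val ⁻¹' T)) (h5 : Negl (RegT X) 5 (RegT.val ⁻¹' S))
    (hsurf : ∀ x ∈ (RegT.val ⁻¹' S \ RegT.val ⁻¹' T : Set (RegT X)), IsSurfAt (RegT.val ⁻¹' S) x)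
    (k : ℕ) (e : Fin k → RegT X)
    (he : ∀ x ∈ (RegT.val ⁻¹' S \ RegT.val ⁻¹' T : Set (RegT X)),
      ∃ i, x ∈ connectedComponentIn (RegT.val ⁻¹' S \ RegT.val ⁻¹' T) (e i))
    (ρ : ℕ) (hρ : RankXS X W v E S ρ) : RankX X W v E (ρ + 2 * k) := by
  classical
  have hP := stPair Y
  obtain ⟨y0⟩ := hne
  obtain ⟨h, hh⟩ := exists_lft (X := X) W v y0
  have hne : Nonempty (RegT X) := ⟨y0⟩
  -- the subspace of movable combinations
  have key : ∀ (n : ℕ) (a : Fin n → Fm 4 Y) (c : Fin n → Fm 4 (RegT X)),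
      (∀ i, XF X W v E (a i) (c i)) →
      ∃ R : Matrix (Fin n) (Fin n) ℝ, R.rank ≤ k ∧ ∀ i, ∃ γ : Fm 3 (RegT X), SC γ ∧
        ∀ᶠ y in 𝓝ˢ (RegT.val ⁻¹' S), (∑ l, (1 - R) i l • c l) y = dF γ y := by
    intro n a c ha
    let SS : Submodule ℝ (Fin n → ℝ) :=
      { carrier := {t | ∃ γ : Fm 3 (RegT X), SC γ ∧
          ∀ᶠ y in 𝓝ˢ (RegT.val ⁻¹' S), (∑ l, t l • c l) y = dF γ y}
        zero_mem' := by
          refine ⟨0, ⟨fun y => smAt_zero y, ∅, isCompact_empty, fun y _ => rfl⟩, ?_⟩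
          refine Filter.Eventually.of_forall fun y => ?_
          have := dF_smul (0 : ℝ) (0 : Fm 3 (RegT X)) y
          rw [zero_smul, zero_smul] at this
          simp [this]
        add_mem' := by
          rintro t t' ⟨γ, hγ, h⟩ ⟨γ', hγ', h'⟩
          refine ⟨γ + γ', ⟨fun y => (hγ.sm y).add (hγ'.sm y), ?_⟩, ?_⟩
          · obtain ⟨C, hC, h1⟩ := hγ.cpt
            obtain ⟨C', hC', h2⟩ := hγ'.cpt
            refine ⟨C ∪ C', hC.union hC', fun y hy => ?_⟩
            rw [Pi.add_apply, h1 y fun h => hy (Or.inl h), h2 y fun h => hy (Or.inr h), add_zero]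
          · filter_upwards [h, h'] with y h1 h2
            rw [dF_add (hγ.sm y) (hγ'.sm y), ← h1, ← h2, Finset.sum_apply, Finset.sum_apply,
              Finset.sum_apply, ← Finset.sum_add_distrib]
            refine Finset.sum_congr rfl fun l _ => ?_
            show (t l + t' l) • c l y = t l • c l y + t' l • c l y
            rw [add_smul]
        smul_mem' := by
          rintro r t ⟨γ, hγ, h⟩
          refine ⟨r • γ, ⟨fun y => (hγ.sm y).smul r, ?_⟩, ?_⟩
          · obtain ⟨C, hC, h1⟩ := hγ.cpt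
            exact ⟨C, hC, fun y hy => by rw [Pi.smul_apply, h1 y hy, smul_zero]⟩
          · filter_upwards [h] with y h1
            rw [dF_smul, ← h1, Finset.sum_apply, Finset.sum_apply, Finset.smul_sum]
            refine Finset.sum_congr rfl fun l _ => ?_
            show (r * t l) • c l y = r • t l • c l y
            rw [mul_smul] }
    obtain ⟨R, hR, h1⟩ := exists_proj (k := k) SS (by
      intro t
      have hx : ∀ i, XF X W v E (∑ l, t i l • a l) (∑ l, t i l • c l) := fun i => XF.sum ha (t i)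
      choose N hN hNE hNa hNc using fun i => (hx i).supp
      set K : Set X.pt := (⋃ i, N i) ∩ S with hK
      have hKc : IsClosed K := (isClosed_iUnion_of_finite hN).inter hS
      have hKcp : IsCompact (RegT.val ⁻¹' K : Set (RegT X)) := cpt_val hKc (by
        rintro x ⟨hx1, hx2⟩
        obtain ⟨i, hi⟩ := mem_iUnion.1 hx1
        exact hNE i x hi (hSE hx2))
      obtain ⟨u, γ, hu, hγ, hγc, -, h2⟩ := H29.move_avoid (M := RegT X)
        (E := RegT.val ⁻¹' S) (T := RegT.val ⁻¹' T) (L := ∅) (hS.preimage RegT.continuous_val)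
        (hT.preimage RegT.continuous_val) isClosed_empty (preimage_mono hTS)
        (by rw [inter_empty]; exact empty_subset _) h3 h5 hsurf k e he
        (fun i => ∑ l, t i l • c l) (fun i y => (hx i).smR y)
        (fun i => Filter.Eventually.of_forall fun y => (hx i).clR y) hKcp (by
          intro i r hr
          have hrN : r.val ∉ N i := fun h => hr.2 ⟨mem_iUnion.2 ⟨i, h⟩, hr.1⟩
          filter_upwards [((hN i).isOpen_compl.preimage RegT.continuous_val).mem_nhds hrN]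
            with z hz using hNc i z hz) (by
          intro i
          rw [inter_empty, nhdsSet_empty]
          exact eventually_bot)
      refine ⟨u, hu, γ, ⟨hγ, hγc⟩, ?_⟩
      filter_upwards [h2] with y hy
      rw [← hy]
      have h3 : ∑ l, (∑ i, u i • t i) l • c l = ∑ i, u i • ∑ l, t i l • c l := by
        simp only [Finset.sum_apply, Pi.smul_apply, smul_eq_mul, Finset.sum_smul, mul_smul]
        rw [Finset.sum_comm]
        refine Finset.sum_congr rfl fun i _ => ?_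
        rw [Finset.smul_sum]
      rw [h3]
      simp only [Finset.sum_apply, Pi.smul_apply])
    exact ⟨R, hR, h1⟩
  intro n a b ha hb
  choose c hc using ha
  choose d hd using hb
  obtain ⟨R, hR, hγ⟩ := key n a c hc
  obtain ⟨R', hR', hγ'⟩ := key n b d hd
  choose γ hγs hγ using hγ
  choose γ' hγs' hγ' using hγ'
  set N : Matrix (Fin n) (Fin n) ℝ := Matrix.of fun i j => pr Y (a i) (b j) with hN
  have ha' : ∀ i, XF X W v E (∑ l, (1 - R) i l • a l) (∑ l, (1 - R) i l • c l) :=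
    fun i => XF.sum hc _
  have hb' : ∀ i, XF X W v E (∑ l, (1 - R') i l • b l) (∑ l, (1 - R') i l • d l) :=
    fun i => XF.sum hd _
  have h1 := hρ n (fun i => (∑ l, (1 - R) i l • a l) - pz (WR X W v) h (dF (γ i)))
    (fun i => (∑ l, (1 - R') i l • b l) - pz (WR X W v) h (dF (γ' i)))
    (fun i => ⟨_, XF.xfs hM hne ((ha' i).sub (XF.exact hM hh (hγs i))) hSE (by
      filter_upwards [hγ i] with y hy; rw [Pi.sub_apply, hy, sub_self])⟩)
    (fun i => ⟨_, XF.xfs hM hne ((hb' i).sub (XF.exact hM hh (hγs' i))) hSE (by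
      filter_upwards [hγ' i] with y hy; rw [Pi.sub_apply, hy, sub_self])⟩)
  have h2 : (Matrix.of fun i j => pr Y ((∑ l, (1 - R) i l • a l) - pz (WR X W v) h (dF (γ i)))
      ((∑ l, (1 - R') j l • b l) - pz (WR X W v) h (dF (γ' j)))) =
      (1 - R) * N * (1 - R').transpose := by
    ext i j
    rw [Matrix.of_apply, XF.pr_sub_exact hM hne hh (hγs i) (ha' i)
      ((hb' j).sub (XF.exact hM hh (hγs' j))), hP.comm,
      XF.pr_sub_exact hM hne hh (hγs' j) (hb' j) (ha' i),
      XF.pr_sum_left hM hne hd (ha' i)]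
    simp only [Matrix.mul_apply, Matrix.transpose_apply, Finset.sum_mul]
    rw [Finset.sum_congr rfl fun l _ => by rw [hP.comm, XF.pr_sum_left hM hne hc (hd l)]]
    refine Finset.sum_congr rfl fun l _ => ?_
    rw [Finset.mul_sum]
    refine Finset.sum_congr rfl fun m _ => ?_
    rw [hN, Matrix.of_apply]
    ring
  rw [h2] at h1
  have h3 : N = (1 - R) * N * (1 - R').transpose + ((1 - R) * N) * R'.transpose + R * N := by
    have : (1 - R').transpose = 1 - R'.transpose := by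
      rw [Matrix.transpose_sub, Matrix.transpose_one]
    rw [this]
    noncomm_ring
  rw [h3]
  refine (rank_add_le' _ _).trans ?_
  have h4 := rank_add_le' ((1 - R) * N * (1 - R').transpose) (((1 - R) * N) * R'.transpose)
  have h5 : (((1 - R) * N) * R'.transpose).rank ≤ k :=
    (Matrix.rank_mul_le_right _ _).trans (by rw [Matrix.rank_transpose]; exact hR')
  have h6 : (R * N).rank ≤ k := (Matrix.rank_mul_le_left _ _).trans hR
  omega

/-- an analytic set of dimension `≤ 2`, generically contained in the regular locus -/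
theorem stepX_an (hM : PMod X W O v E) (hne : Nonempty (RegT X)) {S : Set X.pt}
    (hSan : IsAn X univ S) (hS2 : DimLe X 2 S) (hSE : S ⊆ E) {ρ : ℕ}
    (hρ : RankXS X W v E S ρ) : ∃ k, RankX X W v E (ρ + 2 * k) := by
  obtain ⟨y0⟩ := hne
  set T : Set X.pt := {x | x ∈ S ∧ ¬ (IsReg 4 X x ∧ IsSurfX X S x)} with hT
  have hT1 : DimLe X 1 T := by
    refine (hM.dim.union (H762.stL1 X S hSan hS2)).mono ?_
    rintro x ⟨hxS, hx⟩
    by_cases h2 : IsReg 4 X x
    · exact Or.inr ⟨hxS, fun h3 => hx ⟨h2, h3⟩⟩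
    · exact Or.inl ⟨hSE hxS, h2⟩
  have hScl : IsClosed S := isClosed_of_isAn hSan
  have hTcl : IsClosed T := by
    rw [← isOpen_compl_iff, isOpen_iff_mem_nhds]
    intro x hx
    by_cases hxS : x ∈ S
    · have h2 : IsReg 4 X x ∧ IsSurfX X S x := by
        by_contra h3; exact hx ⟨hxS, h3⟩
      filter_upwards [(RegT.isOpen_reg X).mem_nhds h2.1, isSurfX_open h2.2] with y hy1 hy2 hy3
      exact hy3.2 ⟨hy1, hy2 hy3.1⟩
    · filter_upwards [hScl.isOpen_compl.mem_nhds hxS] with y hy hy2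
      exact hy hy2.1
  have hST : ∀ x ∈ S \ T, IsReg 4 X x ∧ IsSurfX X S x := by
    rintro x ⟨hxS, hxT⟩
    by_contra h2
    exact hxT ⟨hxS, h2⟩
  obtain ⟨k, c, hc⟩ := H762.stL3 X S T hSan hS2 hTcl (fun x hx => hx.1) hT1
    (fun x hx => (hST x hx).2)
  obtain ⟨c', hc'⟩ := comp_reg (fun x hx => (hST x hx).1) y0 c hc
  refine ⟨k, stepX hM ⟨y0⟩ hScl hTcl (fun x hx => hx.1) hSE (negl_of_dimLe hT1 (by norm_num))
    (negl_of_dimLe hS2 (by norm_num)) ?_ k c' hc' ρ hρ⟩
  intro x hx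
  exact isSurfAt_of (hST x.val hx).2

/-- a closed set of dimension `≤ 1` -/
theorem stepX_thin (hM : PMod X W O v E) (hne : Nonempty (RegT X)) {S : Set X.pt}
    (hS : IsClosed S) (hS1 : DimLe X 1 S) (hSE : S ⊆ E) {ρ : ℕ}
    (hρ : RankXS X W v E S ρ) : RankX X W v E ρ := by
  have h := stepX hM hne hS hS Subset.rfl hSE (negl_of_dimLe hS1 (by norm_num))
    (negl_of_dimLe hS1 (by norm_num)) (fun x hx => absurd hx.1 hx.2) 0 (fun i => i.elim0)
    (fun x hx => absurd hx.1 hx.2) ρ hρ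
  simpa using h

end Vale.Agent.P277.H371.C
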