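import Vale.Agent.P277.H371.C.XEta
import Vale.Agent.P277.H371.C.D2x
import Vale.Agent.P277.H371.C.Step

/-!
# P277, T2c: a flip with one-dimensional flipped locus decreases the rank
-/

set_option maxSynthPendingDepth 3

open scoped Manifold ContDiff Topology
open Vale.Agent.P272.K Vale.Agent.P285.H281.FD Vale.Agent.P267.H175 Set Filter
open Vale.Agent.P267.H928.Int ContinuousAlternatingMap

noncomputable section

namespace Vale.Agent.P277.H371.C

open Vale.Agent.P277 H619 H19 H615 H884.F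

theorem rad_comp {Y : Type} [TopologicalSpace Y] {X : CSp} {v : Y → X.pt} {y : Y}
    (hv : ContinuousAt v y) {n : ℕ} {F : Fin (n + 3) → X.pt → ℂ} {f f' : X.pt → ℂ} {c : ℝ → ℝ}
    (h : Rad F f f' (v y) c) :
    Rad (fun m y => F m (v y)) (fun y => f (v y)) (fun y => f' (v y)) y c :=
  ⟨h.smooth, h.anti, h.nonneg, h.pos, hv.eventually h.eq⟩

variable {Y : Type} [TopologicalSpace Y] [T2Space Y] [SecondCountableTopology Y]
  [ChartedSpace (Cm 4) Y] [IsManifold 𝓘(ℂ, Cm 4) ω Y]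

/-- the pair of `X`-forms attached to a flip -/
theorem exists_pair {X Z X' : CSp} {f : X.pt → Z.pt} {f' : X'.pt → Z.pt} {A : Set Z.pt}
    {L : Bd X.pt} {L' : Bd X'.pt} (F : IsFlip X Z X' f f' A L L') {W O : Set Y} {v : Y → X.pt}
    {E : Set X.pt} (hM : PMod X W O v E) (hne : Nonempty (RegT X)) (hd : DimLe X' 1 (f' ⁻¹' A)) :
    ∃ (η : Fm 4 Y) (cη : Fm 4 (RegT X)), XF X W v E η cη ∧
      ∀ C : Set X.pt, IsClosed C → (∀ x ∈ C, x ∈ E → IsReg 4 X x) → Disjoint C (f ⁻¹' A) →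
        ∃ (θ : Fm 4 Y) (cθ : Fm 4 (RegT X)), XF X W v E θ cθ ∧
          (∀ y ∈ W, v y ∈ C → θ y = 0) ∧ pr Y θ η ≠ 0 := by
  have hτc : IsClosed {x | x ∈ E ∧ ¬ IsReg 4 X x} :=
    hM.closed.inter (RegT.isOpen_reg X).isClosed_compl
  obtain ⟨P, Q, G, s, s', σ, σ', x₀, hf, hGA⟩ := exists_flipOut F hM.dim hM.emb hM.codim hd
  obtain ⟨n, Ft, N, hF, hFne, hN, hNτ, hF0, hmain⟩ := exists_tupX hτc hM.dim hf
  have hv := hM.holMap
  have hNE : ∀ x ∈ N, x ∈ E → IsReg 4 X x := fun x hx hxE => by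
    by_contra h
    exact hNτ hx ⟨hxE, h⟩
  have xη : XF X W v E (et v P W univ Ft) (et RegT.val P univ univ Ft) :=
    xf_et hM hf.lbP isOpen_univ hF (fun x _ => hFne x) hN (subset_univ _) hNE hF0
  refine ⟨_, _, xη, fun C hC hCE hCA => ?_⟩
  obtain ⟨n', Ft', N', hF', hFne', hN', hN'G, hN'τ, hN'C, hF0', hrad, i, j, c, c', hi, hj, hr,
    hjac⟩ := hmain C hC (by
      rw [Set.disjoint_left]
      rintro x hx ⟨hxE, hxr⟩
      exact hxr (hCE x hx hxE)) (hCA.mono_right hGA)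
  have hN'E : ∀ x ∈ N', x ∈ E → IsReg 4 X x := fun x hx hxE => by
    by_contra h
    exact hN'τ hx ⟨hxE, h⟩
  have xθ : XF X W v E (et v Q W G Ft') (et RegT.val Q univ G Ft') :=
    xf_et hM hf.lbQ hf.isOpen hF' hFne' hN' hN'G hN'E hF0'
  refine ⟨_, _, xθ, fun y hy hyC => et_zero hv hf.lbQ hf.isOpen hF' hFne' hN' hF0' hy
    fun h => Set.disjoint_left.1 hN'C h hyC, ?_⟩
  have hx₀ : x₀ ∈ G := hf.mem.1.1
  have hz : ∀ {L : Bd X.pt} {u : L.ι → X.pt → ℂ}, IsSecx X G L u → x₀ ∈ Zs L u → ∀ i,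
      x₀ ∈ L.U i → u i x₀ = 0 := by
    intro L u hu ⟨k, hk, hk0⟩ i hi
    rw [hu.change i k x₀ hx₀ hi hk, hk0, mul_zero]
  -- positivity of the cut-offs near `x₀`
  have key : ∀ (a b : X.pt → ℂ) (c : ℝ → ℝ), X.Hol a x₀ → X.Hol b x₀ → a x₀ = 0 → b x₀ = 0 →
      Continuous c → 0 < c 0 → ∀ᶠ x in 𝓝 x₀, 0 < c (‖a x‖ ^ 2 + ‖b x‖ ^ 2) := by
    intro a b c ha hb ha0 hb0 hc hc0
    have h1 : ContinuousAt (fun x => c (‖a x‖ ^ 2 + ‖b x‖ ^ 2)) x₀ :=
      hc.continuousAt.comp (((hol_continuousAt ha).norm.pow 2).add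
        ((hol_continuousAt hb).norm.pow 2))
    refine h1.eventually_const_lt ?_
    simp only [ha0, hb0, norm_zero]
    norm_num
    exact hc0
  have hRad : ∀ᶠ x in 𝓝 x₀, (Rad (fun m => Ft m i) (s i) (s' i) x c ∧
      Rad (fun m => Ft' m j) (σ j) (σ' j) x c') ∧
      0 < c (‖s i x‖ ^ 2 + ‖s' i x‖ ^ 2) ∧ 0 < c' (‖σ j x‖ ^ 2 + ‖σ' j x‖ ^ 2) := by
    obtain ⟨r1, r2⟩ := hr.self_of_nhds
    filter_upwards [hr, key _ _ c (hf.sec.holo i _ hx₀ hi) (hf.sec'.holo i _ hx₀ hi)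
      (hz hf.sec hf.zero.1 i hi) (hz hf.sec' hf.zero.2 i hi) r1.smooth.continuous r1.pos,
      key _ _ c' (hf.secσ.holo j _ hx₀ hj) (hf.secσ'.holo j _ hx₀ hj)
      (hz hf.secσ hf.mem.1.2 j hj) (hz hf.secσ' hf.mem.2 j hj) r2.smooth.continuous r2.pos]
      with x h1 h2 h3
    exact ⟨h1, h2, h3⟩
  obtain ⟨N₀, hN₀, hN₀o, hx₀N⟩ := eventually_nhds_iff.1 hRad
  obtain ⟨y₁, hy₁O, ⟨⟨hy₁N, hy₁G⟩, hy₁P, hy₁Q⟩, hJ⟩ := hjac N₀ hN₀o hx₀N
  obtain ⟨⟨r1, r2⟩, h2, h3⟩ := hN₀ _ hy₁N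
  have hy₁W : y₁ ∈ W := hM.sub hy₁O
  -- the product at radial points
  have gP := goodG hv hf.lbP (isOpen_univ : IsOpen (univ : Set X.pt))
  have gQ := goodG hv hf.lbQ hf.isOpen
  have tP := tup_of (G := univ) hv hF fun x _ => hFne x
  have tQ := tup_of hv hF' hFne'
  have hform : ∀ y ∈ W, v y ∈ G → ∀ e ∈ atlas (Cm 4) Y, y ∈ e.source → ∀ i j c c',
      v y ∈ P.U i → v y ∈ Q.U j → Rad (fun m => Ft m i) (s i) (s' i) (v y) c →
      Rad (fun m => Ft' m j) (σ j) (σ' j) (v y) c' →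
      loc e (fun y => wdg (et v P W univ Ft y) (et v Q W G Ft' y)) (e y) stdB =
        H884.F.kap c (‖s i (v y)‖ ^ 2 + ‖s' i (v y)‖ ^ 2) * H884.F.kap c' (‖σ j (v y)‖ ^ 2 + ‖σ' j (v y)‖ ^ 2) *
          ‖Jac v ![s i, s' i, σ j, σ' j] e (e y)‖ ^ 2 := by
    intro y hy hyG e he hye i j c c' hi hj hr hr'
    have hvc := hM.continuousAt hy
    exact loc_prod' (hv.hol y hy _ (hf.sec.holo i _ hyG hi) e ⟨he, hye⟩)
      (hv.hol y hy _ (hf.sec'.holo i _ hyG hi) e ⟨he, hye⟩)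
      (hv.hol y hy _ (hf.secσ.holo j _ hyG hj) e ⟨he, hye⟩)
      (hv.hol y hy _ (hf.secσ'.holo j _ hyG hj) e ⟨he, hye⟩)
      (eta_rad gP tP ⟨hy, mem_univ _⟩ hi (rad_comp hvc hr) he hye)
      (eta_rad gQ tQ ⟨hy, hyG⟩ hj (rad_comp hvc hr') he hye)
  have hat : At (chartAt (Cm 4) y₁) y₁ := ⟨chart_mem_atlas _ _, mem_chart_source _ _⟩
  have hpos := hform y₁ hy₁W hy₁G _ hat.1 hat.2 i j c c' hy₁P hy₁Q r1 r2
  rw [(stPair Y).comm]
  refine (XF.pr_pos hM xη xθ hne (fun y e he hye => ?_) hy₁W hat.1 hat.2 ?_).ne'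
  · have h0 : et v P W univ Ft y = 0 ∨ et v Q W G Ft' y = 0 →
        0 ≤ loc e (fun y => wdg (et v P W univ Ft y) (et v Q W G Ft' y)) (e y) stdB := by
      intro h
      have h3 : wdg (et v P W univ Ft y) (et v Q W G Ft' y) = 0 := by
        rcases h with h | h
        · rw [h, H619.wdg_zero_left]
        · rw [h, H619.wdg_zero_right]
      have h4 : loc e (fun y => wdg (et v P W univ Ft y) (et v Q W G Ft' y)) (e y) = 0 := by
        rw [loc, e.left_inv hye, h3]; rfl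
      rw [h4]; exact le_rfl
    by_cases hyW : y ∈ W
    swap
    · exact h0 (Or.inl (xη.off y hyW))
    by_cases h1 : v y ∈ N
    swap
    · exact h0 (Or.inl (et_zero hv hf.lbP isOpen_univ hF (fun x _ => hFne x) hN hF0 hyW h1))
    by_cases h2 : v y ∈ N'
    swap
    · exact h0 (Or.inr (et_zero hv hf.lbQ hf.isOpen hF' hFne' hN' hF0' hyW h2))
    obtain ⟨i, j, c, c', hi, hj, hr, hr'⟩ := hrad (v y) ⟨h1, h2⟩
    rw [hform y hyW (hN'G h2) e he hye i j c c' hi hj hr hr']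
    refine mul_nonneg (mul_nonneg (kap_nonneg hr.anti hr.nonneg (by positivity))
      (kap_nonneg hr'.anti hr'.nonneg (by positivity))) (by positivity)
  · rw [hpos]
    have h1 := kap_pos r1.anti (t := ‖s i (v y₁)‖ ^ 2 + ‖s' i (v y₁)‖ ^ 2) (by positivity) h2
    have h2' := kap_pos r2.anti (t := ‖σ j (v y₁)‖ ^ 2 + ‖σ' j (v y₁)‖ ^ 2) (by positivity) h3
    have h3' := hJ _ hat
    positivity

/-- linear algebra -/
theorem rank_cons {n : ℕ} (M : Matrix (Fin (n + 1)) (Fin (n + 1)) ℝ) (h0 : M 0 0 ≠ 0)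
    (h : ∀ j : Fin n, M 0 j.succ = 0) :
    (Matrix.of fun i j : Fin n => M i.succ j.succ).rank + 1 ≤ M.rank := by
  set A : Matrix (Fin n) (Fin n) ℝ := Matrix.of fun i j : Fin n => M i.succ j.succ with hA
  let ι : (Fin n → ℝ) →ₗ[ℝ] (Fin (n + 1) → ℝ) :=
    { toFun := fun w => Fin.cons 0 w
      map_add' := fun w w' => by
        funext i
        refine Fin.cases ?_ (fun i => ?_) i
        · simp
        · simp
      map_smul' := fun t w => by
        funext i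
        refine Fin.cases ?_ (fun i => ?_) i
        · simp
        · simp }
  have hι : Function.Injective ι := by
    intro w w' hw
    funext i
    have := congrFun hw i.succ
    exact this
  set V : Submodule ℝ (Fin (n + 1) → ℝ) := (LinearMap.range A.mulVecLin).map ι with hV
  have h1 : Module.finrank ℝ V = A.rank := by
    rw [Matrix.rank]
    exact (LinearEquiv.finrank_eq (Submodule.equivMapOfInjective ι hι _)).symm
  have h2 : V ≤ LinearMap.range M.mulVecLin := by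
    rintro _ ⟨_, ⟨w, rfl⟩, rfl⟩
    refine ⟨Fin.cons 0 w, ?_⟩
    funext i
    refine Fin.cases ?_ (fun i => ?_) i
    · show (M.mulVec (Fin.cons 0 w : Fin (n + 1) → ℝ)) 0 = 0
      rw [Matrix.mulVec, dotProduct, Fin.sum_univ_succ]
      simp [h]
    · show (M.mulVec (Fin.cons 0 w : Fin (n + 1) → ℝ)) i.succ = A.mulVec w i
      rw [Matrix.mulVec, dotProduct, Fin.sum_univ_succ, Matrix.mulVec, dotProduct]
      simp [hA]
  have h3 : V < LinearMap.range M.mulVecLin := by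
    refine lt_of_le_of_ne h2 fun heq => ?_
    have h4 : M.mulVecLin (Pi.single 0 1) ∈ V := by
      rw [heq]; exact ⟨_, rfl⟩
    obtain ⟨w, -, hw⟩ := h4
    have h5 := congrFun hw 0
    have h6 : (ι w) 0 = 0 := rfl
    rw [h6] at h5
    have h7 : M.mulVecLin (Pi.single 0 1) 0 = M 0 0 := by simp
    rw [h7] at h5
    exact h0 h5.symm
  have h4 := Submodule.finrank_lt_finrank_of_lt h3
  rw [h1] at h4
  rw [Matrix.rank]
  exact h4

/-- **a flip with one-dimensional flipped locus decreases the rank.** -/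
theorem thin_step {X Z X' : CSp} {f : X.pt → Z.pt} {f' : X'.pt → Z.pt} {A : Set Z.pt}
    {L : Bd X.pt} {L' : Bd X'.pt} (F : IsFlip X Z X' f f' A L L') {W O : Set Y} {v : Y → X.pt}
    {E : Set X.pt} (hM : PMod X W O v E) (hne : Nonempty (RegT X)) (hne' : Nonempty (RegT X'))
    (hd : DimLe X' 1 (f' ⁻¹' A)) {ρ : ℕ} (hρ : RankX X W v E ρ) :
    ∃ ρ', ρ' + 1 ≤ ρ ∧ RankX X' {y | y ∈ W ∧ f (v y) ∉ A} (H615.tr f F.small' ∘ v)
      (f' ⁻¹' (f '' E ∪ A)) ρ' := by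
  classical
  have H := F.small
  have H' := F.small'
  have hA : IsClosed A := an_closed H.an
  obtain ⟨y0'⟩ := hne'
  obtain ⟨η, cη, hη, hθ⟩ := exists_pair F hM hne hd
  have hM' := pmod_step H H' hM (hd.mono fun x hx => hx.1)
  have key : ∀ (n : ℕ) (a b : Fin n → Fm 4 Y),
      (∀ i, ∃ c, XFS X' {y | y ∈ W ∧ f (v y) ∉ A} (H615.tr f F.small' ∘ v)
        (f' ⁻¹' (f '' E ∪ A)) (f' ⁻¹' A) (a i) c) →
      (∀ i, ∃ c, XFS X' {y | y ∈ W ∧ f (v y) ∉ A} (H615.tr f F.small' ∘ v)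
        (f' ⁻¹' (f '' E ∪ A)) (f' ⁻¹' A) (b i) c) →
      (Matrix.of fun i j => pr Y (a i) (b j)).rank + 1 ≤ ρ := by
    intro n a b ha hb
    have hxa : ∀ i, ∃ c, XF X W v E (a i) c := by
      intro i
      obtain ⟨c, hc, N, h1, h2, h3, h4, h5⟩ := ha i
      exact hc.tr H H' hM y0' h1 h2 h3 h4 h5
    choose d hd' N hN hNE hNa hNc hNS using hb
    have hxb : ∀ i, ∃ c, XF X W v E (b i) c := fun i =>
      (hd' i).tr H H' hM y0' (hN i) (hNE i) (hNa i) (hNc i) (hNS i)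
    set C : Set X.pt := ⋃ i, f ⁻¹' (f' '' N i) with hC
    have hCc : IsClosed C := isClosed_iUnion_of_finite fun i =>
      (H'.cont.isClosedMap _ (hN i)).preimage H.cont
    have hCA : ∀ i, ∀ x ∈ f ⁻¹' (f' '' N i), f x ∉ A := by
      rintro i x ⟨x', hx', hxx⟩ hxA
      exact Set.disjoint_left.1 (hNS i) hx' (by rw [mem_preimage, hxx]; exact hxA)
    obtain ⟨θ, cθ, hxθ, hθ0, hθη⟩ := hθ C hCc (by
      rintro x hx hxE
      obtain ⟨i, hi⟩ := mem_iUnion.1 hx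
      have hxA := hCA i x hi
      obtain ⟨x', hx', hxx⟩ := hi
      have h1 := hNE i x' hx' (Or.inl ⟨x, hxE, hxx.symm⟩)
      have h2 := isReg_tr H' H (x := x') (by rw [hxx]; exact hxA) h1
      have h3 : H615.tr f' H x' = x := by
        show pre H (f' x') = x
        rw [hxx]
        exact pre_f H hxA
      rwa [h3] at h2) (by
      rw [Set.disjoint_left]
      intro x hx hxA
      obtain ⟨i, hi⟩ := mem_iUnion.1 hx
      exact hCA i x hi hxA)
    have hθb : ∀ i, pr Y θ (b i) = 0 := by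
      intro i
      rw [(stPair Y).congr θ 0 (b i), pr_zero_left (stPair Y)]
      intro y
      by_cases hyW : y ∈ W
      · by_cases hyA : f (v y) ∈ A
        · exact Or.inl ((hd' i).off y fun h => h.2 hyA)
        · by_cases hyN : H615.tr f H' (v y) ∈ N i
          · right
            exact hθ0 y hyW (mem_iUnion.2 ⟨i, _, hyN, f'_tr H' _⟩)
          · exact Or.inl (hNa i y ⟨hyW, hyA⟩ hyN)
      · exact Or.inl ((hd' i).off y fun h => hyW h.1)
    have h1 := hρ (n + 1) (Fin.cons θ a) (Fin.cons η b)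
      (fun i => Fin.cases ⟨cθ, hxθ⟩ (fun i => hxa i) i)
      (fun i => Fin.cases ⟨cη, hη⟩ (fun i => hxb i) i)
    refine le_trans ?_ h1
    exact rank_cons (Matrix.of fun i j => pr Y ((Fin.cons θ a : Fin (n + 1) → Fm 4 Y) i)
      ((Fin.cons η b : Fin (n + 1) → Fm 4 Y) j)) hθη hθb
  have h0 := key 0 (fun i => i.elim0) (fun i => i.elim0) (fun i => i.elim0) fun i => i.elim0
  refine ⟨ρ - 1, by omega, stepX_thin hM' ⟨y0'⟩ (hA.preimage H'.cont) hd
    (preimage_mono subset_union_right) fun n a b ha hb => ?_⟩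
  have := key n a b ha hb
  omega

end Vale.Agent.P277.H371.C
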