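import Vale.Agent.P277.H371.C.XF
import Vale.Agent.P277.H762.Block2

/-!
# P277, T2c: transport of `X`-forms through a flip
-/

set_option maxSynthPendingDepth 3

open scoped Manifold ContDiff Topology
open Vale.Agent.P272.K Vale.Agent.P285.H281.FD Vale.Agent.P267.H175 Set Filter MeasureTheory
open Vale.Agent.P267.H928.Int ContinuousAlternatingMap

noncomputable section

namespace Vale.Agent.P277.H371.C

open Vale.Agent.P277 H619 H19 H615

section pb

variable {E : Type*} [NormedAddCommGroup E] [NormedSpace ℝ E]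
variable {X : Type*} [TopologicalSpace X] [ChartedSpace E X]
variable {Y : Type*} [TopologicalSpace Y] [ChartedSpace E Y]
variable {Z : Type*} [TopologicalSpace Z] [ChartedSpace E Z]

theorem pb_comp {k : ℕ} {F : X → Y} {G : Y → Z} {a : Z → E [⋀^Fin k]→L[ℝ] ℝ} {x : X}
    (hF : SmM E F x) (hG : SmM E G (F x)) :
    pb (E := E) F (pb G a) x = pb (G ∘ F) a x := by
  have hxs : x ∈ (chartAt E x).source := mem_chart_source E x
  have h2 : (chartAt E x).symm (chartAt E x x) = x := (chartAt E x).left_inv hxs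
  have h3 : (chartAt E (F x)).symm (chartAt E (F x) (F x)) = F x :=
    (chartAt E (F x)).left_inv (mem_chart_source E _)
  rw [pb, pb, pb, comp_comp_alt]
  congr 1
  have d1 : DifferentiableAt ℝ (fun y => chartAt E (G (F x)) (G ((chartAt E (F x)).symm y)))
      (chartAt E (F x) (F ((chartAt E x).symm (chartAt E x x)))) := by
    rw [h2]
    exact hG.2.differentiableAt (by simp)
  have d2 : DifferentiableAt ℝ (fun y => chartAt E (F x) (F ((chartAt E x).symm y)))
      (chartAt E x x) := hF.2.differentiableAt (by simp)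
  have k1 := fderiv_comp (𝕜 := ℝ) (g := fun y => chartAt E (G (F x)) (G ((chartAt E (F x)).symm y)))
    (f := fun y => chartAt E (F x) (F ((chartAt E x).symm y))) (chartAt E x x) d1 d2
  rw [h2] at k1
  rw [← k1]
  refine Filter.EventuallyEq.fderiv_eq ?_
  filter_upwards [ev_symm hxs (hF.1.preimage_mem_nhds
      ((chartAt E (F x)).open_source.mem_nhds (mem_chart_source E (F x))))] with z hz1
  simp only [Function.comp_apply]
  rw [(chartAt E (F x)).left_inv hz1]

end pb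

section step

variable {X Z X' : CSp} {f : X.pt → Z.pt} {f' : X'.pt → Z.pt} {A : Set Z.pt} {Y : Type}
  [TopologicalSpace Y] [ChartedSpace (Cm 4) Y] {W O : Set Y} {v : Y → X.pt} {E : Set X.pt}

theorem isReg_tr (H : IsSmall X Z f A) (H' : IsSmall X' Z f' A) {x : X.pt} (hx : f x ∉ A)
    (h : IsReg 4 X x) : IsReg 4 X' (tr f H' x) := isReg_flip H H' ⟨x, h⟩ hx

theorem null_mono {S T : Set Y} (hT : Null Y T) (h : S ⊆ T) : Null Y S := fun e he =>
  measure_mono_null (image_mono (inter_subset_inter_left _ h)) (hT e he)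

theorem pmod_step (H : IsSmall X Z f A) (H' : IsSmall X' Z f' A) (hM : PMod X W O v E)
    (hreg : DimLe X' 1 {x | x ∈ f' ⁻¹' A ∧ ¬ IsReg 4 X' x}) :
    PMod X' {y | y ∈ W ∧ f (v y) ∉ A} {y | y ∈ O ∧ f (v y) ∉ A} (tr f H' ∘ v)
      (f' ⁻¹' (f '' E ∪ A)) := by
  have hA : IsClosed A := an_closed H.an
  have hcv : ∀ y ∈ W, ContinuousAt v y := fun y hy => hM.continuousAt hy
  refine ⟨?_, ?_, ?_, ?_, ?_, ?_, ?_, fun y hy => ⟨hM.sub hy.1, hy.2⟩, emb_tr H H' hM.emb, ?_, ?_⟩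
  · exact (H.cont.comp_continuousOn hM.cont).isOpen_inter_preimage hM.isOpen hA.isOpen_compl
  · rintro y ⟨hy, hyA⟩
    exact (ContinuousAt.comp (f := v) (g := tr f H') (tr_continuousAt H H' hyA)
      (hcv y hy)).continuousWithinAt
  · rintro y ⟨hy, hyA⟩ e he g hg
    exact hM.hol y hy e he _ (tr_hol H H' hyA hg)
  · exact ((H.cont.isClosedMap _ hM.closed).union hA).preimage H'.cont
  · refine dimLe_mono (dimLe_union hreg (dimLe_tr H H' hM.dim)) ?_
    rintro x' ⟨hx', hxr⟩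
    by_cases hxA : f' x' ∈ A
    · exact Or.inl ⟨hxA, hxr⟩
    · right
      rcases hx' with ⟨x, hx, hxx⟩ | hx'
      · have hxA' : f x ∉ A := by rw [hxx]; exact hxA
        have hxt : tr f H' x = x' := by
          show pre H' (f x) = x'
          rw [hxx]
          exact pre_f H' hxA
        refine ⟨x, ⟨⟨hx, fun hr => hxr ?_⟩, hxA'⟩, hxt⟩
        rw [← hxt]
        exact isReg_tr H H' hxA' hr
      · exact absurd hx' hxA
  · rintro y ⟨hy, hyA⟩ h
    have h1 : f' (tr f H' (v y)) = f (v y) := f'_tr H' _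
    rcases h with ⟨x, hx, hxx⟩ | h
    · have h2 : f x = f (v y) := hxx.trans h1
      have h3 : x = v y := H.inj _ _ hyA h2
      exact hM.maps y hy (h3 ▸ hx)
    · have h' : f' (tr f H' (v y)) ∈ A := h
      rw [h1] at h'
      exact hyA h'
  · intro C hC hCτ
    have hCA : ∀ x' ∈ C, f' x' ∉ A := fun x' hx' h => Set.disjoint_left.1 hCτ hx' (Or.inr h)
    have h1 : {y | y ∈ W ∧ f (v y) ∉ A} ∩ (tr f H' ∘ v) ⁻¹' C = W ∩ v ⁻¹' (f ⁻¹' (f' '' C)) := by
      ext y
      constructor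
      · rintro ⟨⟨hy, hyA⟩, hyC⟩
        exact ⟨hy, _, hyC, f'_tr H' _⟩
      · rintro ⟨hy, x', hx', hxy⟩
        have hyA : f (v y) ∉ A := by rw [← hxy]; exact hCA x' hx'
        refine ⟨⟨hy, hyA⟩, ?_⟩
        show pre H' (f (v y)) ∈ C
        rw [← hxy, pre_f H' (hCA x' hx')]
        exact hx'
    rw [h1]
    refine hM.proper _ ((H'.cont.isClosedMap _ hC).preimage H.cont) ?_
    rw [Set.disjoint_left]
    rintro x ⟨x', hx', hxx⟩ hxE
    exact Set.disjoint_left.1 hCτ hx' (Or.inl ⟨x, hxE, hxx.symm⟩)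
  · exact dimLe_mono (dimLe_union H'.dim (dimLe_tr H H' hM.codim)) (compl_tr H H')
  · refine null_mono hM.null ?_
    rintro y ⟨⟨hy, hyA⟩, hyO⟩
    exact ⟨hy, fun h => hyO ⟨h, hyA⟩⟩

variable [IsManifold 𝓘(ℂ, Cm 4) ω Y]

/-- transport of forms -/
theorem XF.tr (H : IsSmall X Z f A) (H' : IsSmall X' Z f' A) (hM : PMod X W O v E)
    {a : Fm 4 Y} {c' : Fm 4 (RegT X')} (y0' : RegT X')
    (ha : XF X' {y | y ∈ W ∧ f (v y) ∉ A} (tr f H' ∘ v) (f' ⁻¹' (f '' E ∪ A)) a c')
    {N' : Set X'.pt} (hN' : IsClosed N') (hNE : ∀ x ∈ N', x ∈ f' ⁻¹' (f '' E ∪ A) → IsReg 4 X' x)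
    (hNa : ∀ y ∈ {y | y ∈ W ∧ f (v y) ∉ A}, (H615.tr f H' ∘ v) y ∉ N' → a y = 0)
    (hNc : ∀ r : RegT X', r.val ∉ N' → c' r = 0) (hNA : Disjoint N' (f' ⁻¹' A)) :
    ∃ c : Fm 4 (RegT X), XF X W v E a c := by
  classical
  have hA : IsClosed A := an_closed H.an
  obtain ⟨φ, hφ, hφc, hφa⟩ := exists_map H H' y0'
  set U : Set (RegT X) := {r | f r.val ∉ A} with hU
  have hUo : IsOpen U := hA.isOpen_compl.preimage (H.cont.comp RegT.continuous_val)
  have hφs : ∀ r ∈ U, SmM (Cm 4) φ r := fun r hr => smM_of hUo hφc (fun y hy => hφa y hy) hr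
  set N : Set X.pt := f ⁻¹' (f' '' N') with hN
  have hNc' : IsClosed N := (H'.cont.isClosedMap _ hN').preimage H.cont
  have hNfA : ∀ x ∈ N, f x ∉ A := by
    rintro x ⟨x', hx', hxx⟩ hxA
    exact Set.disjoint_left.1 hNA hx' (by rw [mem_preimage, hxx]; exact hxA)
  have hNtr : ∀ x, f x ∉ A → H615.tr f H' x ∈ N' → x ∈ N := fun x _ h => ⟨_, h, f'_tr H' x⟩
  have hWz : ∀ y ∈ W, v y ∉ N → a y = 0 := by
    intro y hy hyN
    by_cases hyA : f (v y) ∈ A
    · exact ha.off y fun h => h.2 hyA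
    · exact hNa y ⟨hy, hyA⟩ fun h => hyN (hNtr _ hyA h)
  have hRz : ∀ r : RegT X, r.val ∉ N → pz U φ c' r = 0 := by
    intro r hr
    by_cases hrU : r ∈ U
    · simp only [pz, if_pos hrU, pb]
      rw [hNc (φ r) fun h => hr (hNtr _ hrU (by rw [hφ r hrU] at h; exact h))]
      rfl
    · simp only [pz, if_neg hrU]
  have hev : ∀ r ∈ U, pz U φ c' =ᶠ[𝓝 r] pb φ c' := by
    intro x hx
    filter_upwards [hUo.mem_nhds hx] with y hy
    simp only [pz, if_pos hy]
  have hev0 : ∀ r, r ∉ U → pz U φ c' =ᶠ[𝓝 r] 0 := by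
    intro x hx
    have h1 : x.val ∉ N := fun h => hx (hNfA _ h)
    filter_upwards [(hNc'.isOpen_compl.preimage RegT.continuous_val).mem_nhds h1] with y hy
    exact hRz y hy
  have hevW : ∀ y ∈ W, f (v y) ∈ A → a =ᶠ[𝓝 y] 0 := by
    intro y hy hyA
    have h1 : v y ∉ N := fun h => hNfA _ h hyA
    filter_upwards [(hM.isOpen_pre hNc'.isOpen_compl).mem_nhds ⟨hy, h1⟩] with z hz
    exact hWz z hz.1 hz.2
  have hFe : ∀ x ∈ U, ∀ᶠ y in 𝓝 x, SmM (Cm 4) φ y := fun x hx => by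
    filter_upwards [hUo.mem_nhds hx] with y hy using hφs y hy
  refine ⟨pz U φ c', fun y hy => ?_, fun y hy => ?_, fun y hy => ha.off y fun h => hy h.1,
    fun r => ?_, fun r => ?_, fun h hh y hy hr => ?_, N, hNc', fun x hx hxE => ?_, hWz, hRz⟩
  · by_cases hyA : f (v y) ∈ A
    · exact (smAt_zero y).congr (hevW y hy hyA)
    · exact ha.sm y ⟨hy, hyA⟩
  · by_cases hyA : f (v y) ∈ A
    · rw [dF_congr (hevW y hy hyA)]
      exact dF_zero_fun y
    · exact ha.cl y ⟨hy, hyA⟩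
  · by_cases hrU : r ∈ U
    · exact (smAt_pb (hFe r hrU) (ha.smR _)).congr (hev r hrU)
    · exact (smAt_zero r).congr (hev0 r hrU)
  · by_cases hrU : r ∈ U
    · rw [dF_congr (hev r hrU), dF_pb (hFe r hrU) (ha.smR _), pb, ha.clR]
      rfl
    · rw [dF_congr (hev0 r hrU)]
      exact dF_zero_fun r
  · have hhy : (h y).val = v y := hh y hy hr
    by_cases hyA : f (v y) ∈ A
    · rw [ha.off y fun h => h.2 hyA]
      have h1 : h y ∉ U := fun h1 => h1 (by rw [hhy]; exact hyA)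
      simp only [pb, pz, if_neg h1]
      rfl
    · have h1 : h y ∈ U := by
        show f (h y).val ∉ A
        rw [hhy]; exact hyA
      have hlft : IsLft X' {y | y ∈ W ∧ f (v y) ∉ A} (H615.tr f H' ∘ v) (φ ∘ h) := by
        rintro z ⟨hz, hzA⟩ hzr
        have hzr' : IsReg 4 X (v z) := by
          have h2 := isReg_tr H' H (x := H615.tr f H' (v z)) (by rw [f'_tr H']; exact hzA) hzr
          rwa [tr_tr H H' hzA] at h2
        have h3 := hh z hz hzr'
        show (φ (h z)).val = H615.tr f H' (v z)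
        rw [hφ (h z) (by rw [h3]; exact hzA), h3]
        rfl
      have h2 := ha.comp (φ ∘ h) hlft y ⟨hy, hyA⟩ (isReg_tr H H' hyA hr)
      rw [h2, ← pb_comp (hM.smM_lft hh y ⟨hy, hr⟩) (hφs _ h1)]
      refine pb_congr_at ?_
      simp only [pz, if_pos h1]
  · obtain ⟨x', hx', hxx⟩ := hx
    have hxA : f x ∉ A := hNfA x ⟨x', hx', hxx⟩
    have h1 := hNE x' hx' (Or.inl ⟨x, hxE, hxx.symm⟩)
    have h2 := isReg_tr H' H (x := x') (by rw [hxx]; exact hxA) h1
    have h3 : H615.tr f' H x' = x := by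
      show pre H (f' x') = x
      rw [hxx]
      exact pre_f H hxA
    rwa [h3] at h2

end step

end Vale.Agent.P277.H371.C
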