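import Vale.Agent.P277.H371.C.Tr
import Vale.Agent.P277.H371.C.TupX
import Vale.Agent.P277.H884.F5p

/-!
# P277, T2c: the `X`-form defined by a tuple of smooth sections of a line bundle on `X`
-/

set_option maxSynthPendingDepth 3

open scoped Manifold ContDiff Topology
open Vale.Agent.P272.K Vale.Agent.P285.H281.FD Vale.Agent.P267.H175 Set Filter
open Vale.Agent.P267.H928.Int ContinuousAlternatingMap

noncomputable section

namespace Vale.Agent.P277.H371.C

open Vale.Agent.P277 H619 H19 H615 H884.F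

section gen

variable {Y : Type} [TopologicalSpace Y] [ChartedSpace (Cm 4) Y] {X : CSp} {W : Set Y}
  {v : Y → X.pt} {P : Bd X.pt} {G : Set X.pt}

theorem smooth_comp (hv : H884.F.HolMap X W v) {y : Y} (hy : y ∈ W) {e : Chart 4 Y} (he : At e y)
    {f : X.pt → ℂ} (hf : Sm X f (v y)) : ContDiffAt ℝ ∞ (fun z => f (v (e.symm z))) (e y) := by
  have hs : e.symm (e y) = y := e.left_inv he.2
  refine Sm.comp_holAt (g := fun z => v (e.symm z)) (by rw [hs]; exact hf) ⟨?_, fun g hg => ?_⟩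
  · have h1 : ContinuousAt v (e.symm (e y)) := by
      rw [hs]; exact hv.cont.continuousAt (hv.isOpen.mem_nhds hy)
    exact h1.comp (f := e.symm) (e.continuousAt_symm (e.map_source he.2))
  · have hg' : X.Hol g (v (e.symm (e y))) := hg
    rw [hs] at hg'
    exact hv.hol y hy g hg' e he

/-- the pulled back tuple -/
theorem tup_of (hv : H884.F.HolMap X W v) {N : ℕ} {F : Fin N → P.ι → X.pt → ℂ}
    (hF : ∀ m, IsSmSec X G P (F m)) (hne : ∀ x ∈ G, ∀ i, x ∈ P.U i → ∃ m, F m i x ≠ 0) :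
    Tup v P (W ∩ v ⁻¹' G) fun m i y => F m i (v y) where
  sec m := ⟨fun i _ hy hi _ he => smooth_comp hv hy.1 he ((hF m).smooth i _ hy.2 hi),
    fun i j y hy hi hj => (hF m).change i j (v y) hy.2 hi hj⟩
  ne y hy i hi := hne (v y) hy.2 i hi

/-- the form -/
def et (v : Y → X.pt) (P : Bd X.pt) (W : Set Y) (G : Set X.pt) {N : ℕ}
    (F : Fin N → P.ι → X.pt → ℂ) : Fm 4 Y :=
  eta v P (W ∩ v ⁻¹' G) fun m i y => F m i (v y)

theorem goodG (hv : H884.F.HolMap X W v) (hP : IsLBx X P) (hG : IsOpen G) :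
    GoodB v P (W ∩ v ⁻¹' G) :=
  goodB' (hv.mono (hv.cont.isOpen_inter_preimage hv.isOpen hG) inter_subset_left) hP

theorem et_zero (hv : H884.F.HolMap X W v) (hP : IsLBx X P) (hG : IsOpen G) {n : ℕ}
    {F : Fin (n + 3) → P.ι → X.pt → ℂ} (hF : ∀ m, IsSmSec X G P (F m))
    (hne : ∀ x ∈ G, ∀ i, x ∈ P.U i → ∃ m, F m i x ≠ 0) {N : Set X.pt} (hN : IsClosed N)
    (h0 : ∀ x, x ∉ N → ∀ i, ∀ m : Fin (n + 3), 2 ≤ m.val → F m i x = 0) {y : Y} (hy : y ∈ W)
    (hyN : v y ∉ N) : et v P W G F y = 0 := by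
  have hC : IsClosed (W ∩ v ⁻¹' Nᶜ)ᶜ :=
    (hv.cont.isOpen_inter_preimage hv.isOpen hN.isOpen_compl).isClosed_compl
  refine eta_zero_of (n := n + 1) (goodG hv hP hG) (tup_of hv hF hne) hC ?_ (fun h => h ⟨hy, hyN⟩)
  intro z _ hz i _ m hm
  rw [mem_compl_iff, not_not] at hz
  exact h0 _ hz.2 i m hm

theorem et_off {N : ℕ} {F : Fin N → P.ι → X.pt → ℂ} {y : Y} (hy : ¬ (y ∈ W ∧ v y ∈ G)) :
    et v P W G F y = 0 := eta_off hy

variable [IsManifold 𝓘(ℂ, Cm 4) ω Y]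

theorem et_smAt (hv : H884.F.HolMap X W v) (hP : IsLBx X P) (hG : IsOpen G) {n : ℕ}
    {F : Fin (n + 3) → P.ι → X.pt → ℂ} (hF : ∀ m, IsSmSec X G P (F m))
    (hne : ∀ x ∈ G, ∀ i, x ∈ P.U i → ∃ m, F m i x ≠ 0) {N : Set X.pt} (hN : IsClosed N)
    (hNG : N ⊆ G)
    (h0 : ∀ x, x ∉ N → ∀ i, ∀ m : Fin (n + 3), 2 ≤ m.val → F m i x = 0) {y : Y} (hy : y ∈ W) :
    SmAt (et v P W G F) y ∧ dF (et v P W G F) y = 0 := by
  by_cases hyN : v y ∈ N
  · exact ⟨smAt_eta (goodG hv hP hG) (tup_of hv hF hne) ⟨hy, hNG hyN⟩,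
      dF_eta (goodG hv hP hG) (tup_of hv hF hne) ⟨hy, hNG hyN⟩⟩
  · have hev : et v P W G F =ᶠ[𝓝 y] 0 := by
      filter_upwards [(hv.cont.isOpen_inter_preimage hv.isOpen hN.isOpen_compl).mem_nhds
        ⟨hy, hyN⟩] with z hz
      exact et_zero hv hP hG hF hne hN h0 hz.1 hz.2
    exact ⟨(smAt_zero y).congr hev, by rw [dF_congr hev]; exact dF_zero_fun y⟩

end gen

theorem holMap_val (X : CSp) : H884.F.HolMap X univ (RegT.val : RegT X → X.pt) :=
  ⟨isOpen_univ, RegT.continuous_val.continuousOn, fun y _ g hg e he =>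
    ((RegT.isOpenEmb_val X).hol y (mem_univ y) e he g).1 hg⟩

section

variable {Y : Type} [TopologicalSpace Y] [ChartedSpace (Cm 4) Y]
  [IsManifold 𝓘(ℂ, Cm 4) ω Y] {X : CSp} {W O : Set Y} {v : Y → X.pt} {E : Set X.pt}
  {P : Bd X.pt} {G : Set X.pt}

omit [IsManifold 𝓘(ℂ, Cm 4) ω Y] in
theorem PMod.holMap (hM : PMod X W O v E) : H884.F.HolMap X W v :=
  ⟨hM.isOpen, hM.cont, fun y hy g hg e he => hM.hol y hy e he g hg⟩

theorem xf_et (hM : PMod X W O v E) (hP : IsLBx X P) (hG : IsOpen G) {n : ℕ}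
    {F : Fin (n + 3) → P.ι → X.pt → ℂ} (hF : ∀ m, IsSmSec X G P (F m))
    (hne : ∀ x ∈ G, ∀ i, x ∈ P.U i → ∃ m, F m i x ≠ 0) {N : Set X.pt} (hN : IsClosed N)
    (hNG : N ⊆ G) (hNE : ∀ x ∈ N, x ∈ E → IsReg 4 X x)
    (h0 : ∀ x, x ∉ N → ∀ i, ∀ m : Fin (n + 3), 2 ≤ m.val → F m i x = 0) :
    XF X W v E (et v P W G F) (et RegT.val P univ G F) := by
  have hv := hM.holMap
  have hr := holMap_val X
  refine ⟨fun y hy => (et_smAt hv hP hG hF hne hN hNG h0 hy).1,
    fun y hy => (et_smAt hv hP hG hF hne hN hNG h0 hy).2, fun y hy => et_off fun h => hy h.1,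
    fun r => (et_smAt hr hP hG hF hne hN hNG h0 (mem_univ r)).1,
    fun r => (et_smAt hr hP hG hF hne hN hNG h0 (mem_univ r)).2, ?_,
    N, hN, hNE, fun y hy hyN => et_zero hv hP hG hF hne hN h0 hy hyN,
    fun r hr' => et_zero hr hP hG hF hne hN h0 (mem_univ r) hr'⟩
  intro h hh y hy hyr
  have hhy : (h y).val = v y := hh y hy hyr
  by_cases hyG : v y ∈ G
  swap
  · rw [et_off fun h => hyG h.2, pb, et_off fun h' => hyG (by rw [← hhy]; exact h'.2)]
    rfl
  obtain ⟨i, hi⟩ := hP.cover (v y)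
  have hyR : y ∈ WR X W v := ⟨hy, hyr⟩
  set e := chartAt (Cm 4) y with he
  set e' := chartAt (Cm 4) (h y) with he'
  have hea : e ∈ atlas (Cm 4) Y := chart_mem_atlas _ y
  have hea' : e' ∈ atlas (Cm 4) (RegT X) := chart_mem_atlas _ (h y)
  have hye : y ∈ e.source := mem_chart_source _ y
  have hye' : h y ∈ e'.source := mem_chart_source _ (h y)
  have hs : e.symm (e y) = y := e.left_inv hye
  have hs' : e'.symm (e' (h y)) = h y := e'.left_inv hye'
  have hsm := hM.smM_lft hh y hyR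
  have h1 : loc e (pb h (et RegT.val P univ G F)) (e y) =
      (loc e' (et RegT.val P univ G F) (e' (h y))).compContinuousLinearMap
        (fderiv ℝ (fun y => e' (h (e.symm y))) (e y)) :=
    loc_pb hea hea' _ hsm hye hye'
  have h2 : loc e' (et RegT.val P univ G F) (e' (h y)) =
      ff (fun m z => F m i (e'.symm z).val) (e' (h y)) :=
    loc_eta (goodG hr hP hG) (tup_of hr hF hne) hea' (e'.map_source hye')
      (by rw [hs']; exact ⟨mem_univ _, by rw [mem_preimage, hhy]; exact hyG⟩)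
      (by rw [hs', hhy]; exact hi)
  have h3 : loc e (et v P W G F) (e y) = ff (fun m z => F m i (v (e.symm z))) (e y) :=
    loc_eta (goodG hv hP hG) (tup_of hv hF hne) hea (e.map_source hye)
      (by rw [hs]; exact ⟨hy, hyG⟩) (by rw [hs]; exact hi)
  have h4 : ContDiffAt ℝ ∞ (fun z => e' (h (e.symm z))) (e y) := hsm.chart hea hea' hye hye'
  have hsmF : ∀ m, ContDiffAt ℝ ∞ (fun z => F m i (e'.symm z).val) (e' (h (e.symm (e y)))) := by
    intro m
    rw [hs]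
    exact ((tup_of hr hF hne).sec m).smooth i (h y) ⟨mem_univ _, by
      rw [mem_preimage, hhy]; exact hyG⟩ (by rw [hhy]; exact hi) e' ⟨hea', hye'⟩
  have hneF : ∃ m, F m i (e'.symm (e' (h (e.symm (e y))))).val ≠ 0 := by
    rw [hs, hs', hhy]
    exact hne (v y) hyG i hi
  have h5 := ff_comp (F := fun m z => F m i (e'.symm z).val) (φ := fun z => e' (h (e.symm z)))
    h4 hsmF hneF
  have h6 : ff (fun m x => F m i (e'.symm (e' (h (e.symm x)))).val) (e y) =
      ff (fun m z => F m i (v (e.symm z))) (e y) := by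
    refine ff_congr fun m => ?_
    have h7 : ∀ᶠ x in 𝓝 (e y), h (e.symm x) ∈ e'.source :=
      ev_symm hye (hsm.1.preimage_mem_nhds (e'.open_source.mem_nhds hye'))
    filter_upwards [h7, ev_symm hye (hM.isOpen_wr.mem_nhds hyR)] with x hx hx2
    rw [e'.left_inv hx, hh _ hx2.1 hx2.2]
  rw [← loc_self (et v P W G F) y, ← loc_self (pb h (et RegT.val P univ G F)) y, ← he, h1, h2,
    h3, ← h6, h5, hs]

end

end Vale.Agent.P277.H371.C
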