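import Vale.Agent.P277.H371.C.Den
import Vale.Agent.P277.H619.StepR

/-!
# P277, T2c: forms on a modification of `X` outside a closed set

`X` is a complex space, `E ⊆ X` is closed, generically contained in the regular locus, and
`v : W → X ∖ E` is a proper modification. An `X`-form is a pair of a form on `W` and a form on the
regular locus of `X` which agree over the regular locus.
-/

set_option maxSynthPendingDepth 3

open scoped Manifold ContDiff Topology
open Vale.Agent.P272.K Vale.Agent.P285.H281.FD Vale.Agent.P267.H175 Set Filter MeasureTheory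
open Vale.Agent.P267.H928.Int ContinuousAlternatingMap

noncomputable section

namespace Vale.Agent.P277.H371.C

open Vale.Agent.P277 H619 H19

/-- `v` restricts to a proper holomorphic map of the open set `W ⊆ Y` onto the complement of the
closed set `E ⊆ X`, an open embedding on `O`. -/
structure PMod {Y : Type} [TopologicalSpace Y] [ChartedSpace (Cm 4) Y] (X : CSp) (W O : Set Y)
    (v : Y → X.pt) (E : Set X.pt) : Prop where
  isOpen : IsOpen W
  cont : ContinuousOn v W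
  hol : ∀ y ∈ W, ∀ e : Chart 4 Y, At e y → ∀ g : X.pt → ℂ, X.Hol g (v y) →
    AnalyticAt ℂ (fun z => g (v (e.symm z))) (e y)
  closed : IsClosed E
  dim : DimLe X 1 {x | x ∈ E ∧ ¬ IsReg 4 X x}
  maps : ∀ y ∈ W, v y ∉ E
  proper : ∀ C, IsClosed C → Disjoint C E → IsCompact (W ∩ v ⁻¹' C)
  sub : O ⊆ W
  emb : IsOpenEmb X O v
  codim : DimLe X 2 (v '' O)ᶜ
  null : Null Y (W \ O)

/-- `h` is `v`, considered as a map to the regular locus. -/
def IsLft {Y : Type} (X : CSp) (W : Set Y) (v : Y → X.pt) (h : Y → RegT X) : Prop :=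
  ∀ y ∈ W, IsReg 4 X (v y) → (h y).val = v y

theorem exists_lft {Y : Type} {X : CSp} (W : Set Y) (v : Y → X.pt) (y0 : RegT X) :
    ∃ h : Y → RegT X, IsLft X W v h := by
  classical
  let h0 : Y → RegT X := fun y => if h : IsReg 4 X (v y) then ⟨v y, h⟩ else y0
  refine ⟨h0, fun y _ hy => ?_⟩
  have h1 : h0 y = ⟨v y, hy⟩ := dif_pos hy
  rw [h1]; rfl

/-- the points of `W` over the regular locus -/
def WR {Y : Type} (X : CSp) (W : Set Y) (v : Y → X.pt) : Set Y := {y | y ∈ W ∧ IsReg 4 X (v y)}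

section map

variable {Y : Type} [TopologicalSpace Y] [ChartedSpace (Cm 4) Y] {X : CSp} {W O : Set Y}
  {v : Y → X.pt} {E : Set X.pt}

theorem PMod.continuousAt (hM : PMod X W O v E) {y : Y} (hy : y ∈ W) : ContinuousAt v y :=
  hM.cont.continuousAt (hM.isOpen.mem_nhds hy)

theorem PMod.isOpen_pre (hM : PMod X W O v E) {V : Set X.pt} (hV : IsOpen V) :
    IsOpen (W ∩ v ⁻¹' V) := hM.cont.isOpen_inter_preimage hM.isOpen hV

theorem PMod.isOpen_wr (hM : PMod X W O v E) : IsOpen (WR X W v) :=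
  hM.isOpen_pre (RegT.isOpen_reg X)

theorem PMod.sub_wr (hM : PMod X W O v E) : O ⊆ WR X W v := fun _ hy =>
  ⟨hM.sub hy, hM.emb.isReg hy⟩

variable {h : Y → RegT X}

theorem PMod.cont_lft (hM : PMod X W O v E) (hh : IsLft X W v h) : ContinuousOn h (WR X W v) := by
  rw [RegT.isOpenEmbedding_val.isInducing.continuousOn_iff]
  exact (hM.cont.mono fun y hy => hy.1).congr fun y hy => hh y hy.1 hy.2

theorem PMod.hol_lft (hM : PMod X W O v E) (hh : IsLft X W v h) : ∀ y ∈ WR X W v,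
    ∀ (e : Chart 4 Y) (e' : Chart 4 (RegT X)), At e y → At e' (h y) →
      AnalyticAt ℂ (fun z => e' (h (e.symm z))) (e y) := by
  intro w hw e e' he he'
  rw [analyticAt_pi_iff]
  intro a
  have hv := RegT.isOpenEmb_val X
  have h3 : X.Hol (fun x => e' (hv.inv (h w) x) a) (h w).val :=
    hv.hol_chart (h w) (mem_univ _) he' a
  rw [hh w hw.1 hw.2] at h3
  have h4 := hM.hol w hw.1 e he _ h3
  refine h4.congr ?_
  filter_upwards [ev_symm he.2 (hM.isOpen_wr.mem_nhds hw)] with z hz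
  show e' (hv.inv (h w) (v (e.symm z))) a = _
  rw [← hh _ hz.1 hz.2, hv.inv_apply _ (mem_univ _)]

theorem PMod.smM_lft [IsManifold 𝓘(ℂ, Cm 4) ω Y] (hM : PMod X W O v E) (hh : IsLft X W v h) :
    ∀ y ∈ WR X W v, SmM (Cm 4) h y :=
  fun _ hy => smM_of hM.isOpen_wr (hM.cont_lft hh) (hM.hol_lft hh) hy

theorem pb_congr_map {M M' : Type} [TopologicalSpace M] [ChartedSpace (Cm 4) M]
    [TopologicalSpace M'] [ChartedSpace (Cm 4) M'] {k : ℕ} {F F' : M → M'} {a : Fm k M'} {x : M}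
    (hF : F =ᶠ[𝓝 x] F') : pb F a x = pb F' a x := by
  have h0 : F x = F' x := hF.self_of_nhds
  have h1 : (fun y => chartAt (Cm 4) (F x) (F ((chartAt (Cm 4) x).symm y)))
      =ᶠ[𝓝 (chartAt (Cm 4) x x)]
      fun y => chartAt (Cm 4) (F' x) (F' ((chartAt (Cm 4) x).symm y)) := by
    filter_upwards [ev_symm (mem_chart_source (Cm 4) x) hF] with y hy
    rw [h0]
    exact congrArg _ hy
  rw [pb, pb, h1.fderiv_eq, h0]

theorem PMod.lft_congr (hM : PMod X W O v E) {h' : Y → RegT X} (hh : IsLft X W v h)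
    (hh' : IsLft X W v h') {y : Y} (hy : y ∈ WR X W v) : h =ᶠ[𝓝 y] h' := by
  filter_upwards [hM.isOpen_wr.mem_nhds hy] with z hz
  exact RegT.val_injective ((hh z hz.1 hz.2).trans (hh' z hz.1 hz.2).symm)

end map

/-- `(a, c)` is an `X`-form. -/
structure XF {Y : Type} [TopologicalSpace Y] [ChartedSpace (Cm 4) Y] (X : CSp) (W : Set Y)
    (v : Y → X.pt) (E : Set X.pt) (a : Fm 4 Y) (c : Fm 4 (RegT X)) : Prop where
  sm : ∀ y ∈ W, SmAt a y
  cl : ∀ y ∈ W, dF a y = 0
  off : ∀ y ∉ W, a y = 0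
  smR : ∀ r, SmAt c r
  clR : ∀ r, dF c r = 0
  comp : ∀ h : Y → RegT X, IsLft X W v h → ∀ y ∈ W, IsReg 4 X (v y) → a y = pb h c y
  supp : ∃ N, IsClosed N ∧ (∀ x ∈ N, x ∈ E → IsReg 4 X x) ∧ (∀ y ∈ W, v y ∉ N → a y = 0) ∧
    ∀ r : RegT X, r.val ∉ N → c r = 0

section alg

variable {Y : Type} [TopologicalSpace Y] [ChartedSpace (Cm 4) Y]
  {X : CSp} {W : Set Y} {v : Y → X.pt} {E : Set X.pt} {a a' : Fm 4 Y} {c c' : Fm 4 (RegT X)}

theorem pb_add {M M' : Type} [TopologicalSpace M] [ChartedSpace (Cm 4) M]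
    [TopologicalSpace M'] [ChartedSpace (Cm 4) M'] {k : ℕ} (F : M → M') (a b : Fm k M') (x : M) :
    pb F (a + b) x = pb F a x + pb F b x := by
  rw [pb, pb, pb, Pi.add_apply]
  rfl

theorem pb_smul {M M' : Type} [TopologicalSpace M] [ChartedSpace (Cm 4) M]
    [TopologicalSpace M'] [ChartedSpace (Cm 4) M'] {k : ℕ} (F : M → M') (r : ℝ) (a : Fm k M')
    (x : M) : pb F (r • a) x = r • pb F a x := by
  rw [pb, pb, Pi.smul_apply]
  rfl

theorem dF_zero_fun {M : Type} [TopologicalSpace M] [ChartedSpace (Cm 4) M] {k : ℕ} (x : M) :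
    dF (0 : Fm k M) x = 0 := by
  have h1 := dF_smul (0 : ℝ) (0 : Fm k M) x
  rwa [zero_smul, zero_smul] at h1

theorem XF.zero : XF X W v E (0 : Fm 4 Y) (0 : Fm 4 (RegT X)) where
  sm y _ := smAt_zero y
  cl y _ := dF_zero_fun y
  off _ _ := rfl
  smR y := smAt_zero y
  clR y := dF_zero_fun y
  comp h _ y _ _ := by rw [pb]; rfl
  supp := ⟨∅, isClosed_empty, fun x hx => hx.elim, fun _ _ _ => rfl, fun _ _ => rfl⟩

theorem XF.add (h : XF X W v E a c) (h' : XF X W v E a' c') : XF X W v E (a + a') (c + c') where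
  sm y hy := (h.sm y hy).add (h'.sm y hy)
  cl y hy := by rw [dF_add (h.sm y hy) (h'.sm y hy), h.cl y hy, h'.cl y hy, add_zero]
  off y hy := by rw [Pi.add_apply, h.off y hy, h'.off y hy, add_zero]
  smR y := (h.smR y).add (h'.smR y)
  clR y := by rw [dF_add (h.smR y) (h'.smR y), h.clR y, h'.clR y, add_zero]
  comp g hg y hy hr := by
    rw [Pi.add_apply, h.comp g hg y hy hr, h'.comp g hg y hy hr, pb_add]
  supp := by
    obtain ⟨N, h1, h2, h3, h4⟩ := h.supp
    obtain ⟨N', h1', h2', h3', h4'⟩ := h'.supp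
    refine ⟨N ∪ N', h1.union h1', ?_, fun y hy hyN => ?_, fun r hr => ?_⟩
    · rintro x (hx | hx) hE
      · exact h2 x hx hE
      · exact h2' x hx hE
    · rw [Pi.add_apply, h3 y hy fun h => hyN (Or.inl h), h3' y hy fun h => hyN (Or.inr h), add_zero]
    · rw [Pi.add_apply, h4 r fun h => hr (Or.inl h), h4' r fun h => hr (Or.inr h), add_zero]

theorem XF.smul (h : XF X W v E a c) (t : ℝ) : XF X W v E (t • a) (t • c) where
  sm y hy := (h.sm y hy).smul t
  cl y hy := by rw [dF_smul, h.cl y hy, smul_zero]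
  off y hy := by rw [Pi.smul_apply, h.off y hy, smul_zero]
  smR y := (h.smR y).smul t
  clR y := by rw [dF_smul, h.clR y, smul_zero]
  comp g hg y hy hr := by rw [Pi.smul_apply, h.comp g hg y hy hr, pb_smul]
  supp := by
    obtain ⟨N, h1, h2, h3, h4⟩ := h.supp
    exact ⟨N, h1, h2, fun y hy hyN => by rw [Pi.smul_apply, h3 y hy hyN, smul_zero],
      fun r hr => by rw [Pi.smul_apply, h4 r hr, smul_zero]⟩

/-- the space of `X`-forms -/
def XS (X : CSp) (W : Set Y) (v : Y → X.pt) (E : Set X.pt) :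
    Submodule ℝ (Fm 4 Y × Fm 4 (RegT X)) where
  carrier := {p | XF X W v E p.1 p.2}
  zero_mem' := XF.zero
  add_mem' := fun h h' => XF.add h h'
  smul_mem' := fun t _ h => XF.smul h t

theorem XF.sum {n : ℕ} {a : Fin n → Fm 4 Y} {c : Fin n → Fm 4 (RegT X)}
    (h : ∀ i, XF X W v E (a i) (c i)) (t : Fin n → ℝ) :
    XF X W v E (∑ i, t i • a i) (∑ i, t i • c i) := by
  have h1 : ∑ i, t i • ((a i, c i) : Fm 4 Y × Fm 4 (RegT X)) ∈ XS X W v E :=
    Submodule.sum_mem _ fun i _ => Submodule.smul_mem _ _ (h i)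
  have h2 : ∑ i, t i • ((a i, c i) : Fm 4 Y × Fm 4 (RegT X)) =
      (∑ i, t i • a i, ∑ i, t i • c i) := by
    rw [Prod.ext_iff, Prod.fst_sum, Prod.snd_sum]
    exact ⟨rfl, rfl⟩
  rw [h2] at h1
  exact h1

end alg

section int

variable {Y : Type} [TopologicalSpace Y] [T2Space Y] [SecondCountableTopology Y]
  [ChartedSpace (Cm 4) Y] [IsManifold 𝓘(ℂ, Cm 4) ω Y]
  {X : CSp} {W O : Set Y} {v : Y → X.pt} {E : Set X.pt} {a b : Fm 4 Y} {c d : Fm 4 (RegT X)}

omit [T2Space Y] [SecondCountableTopology Y] in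
theorem XF.smW (ha : XF X W v E a c) (hb : XF X W v E b d) {y : Y} (hy : y ∈ W) :
    SmAt (fun y => wdg (a y) (b y)) y := smAt_wdg (ha.sm y hy) (hb.sm y hy)

omit [IsManifold 𝓘(ℂ, Cm 4) ω Y] [T2Space Y] [SecondCountableTopology Y] in
theorem XF.offW (ha : XF X W v E a c) {y : Y} (hy : y ∉ W) :
    (fun y => wdg (a y) (b y)) y = 0 := by
  show wdg (a y) (b y) = 0
  rw [ha.off y hy, H619.wdg_zero_left]

omit [T2Space Y] [SecondCountableTopology Y] in
theorem XF.rel (hM : PMod X W O v E) (ha : XF X W v E a c) (hb : XF X W v E b d) {h : Y → RegT X}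
    (hh : IsLft X W v h) {y : Y} (hy : y ∈ O) :
    (fun y => wdg (a y) (b y)) y = pb h (fun r => wdg (c r) (d r)) y := by
  have hy' := hM.sub_wr hy
  show wdg (a y) (b y) = _
  rw [ha.comp h hh y hy'.1 hy'.2, hb.comp h hh y hy'.1 hy'.2, pb, pb, pb, ← H19.wdg_comp]

/-- the comparison of the integrals over `Y` and over the regular locus -/
theorem XF.nat (hM : PMod X W O v E) (ha : XF X W v E a c) (hb : XF X W v E b d)
    (hne : Nonempty (RegT X)) {V : Set X.pt} (hV : IsOpen V) :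
    (letI : MeasurableSpace Y := borel Y
     haveI : BorelSpace Y := ⟨rfl⟩
     letI : MeasurableSpace (RegT X) := borel (RegT X)
     haveI : BorelSpace (RegT X) := ⟨rfl⟩
     ∀ (P : Pou (Cm 4) Y) (P' : Pou (Cm 4) (RegT X)),
      ∫⁻ x in O ∩ v ⁻¹' V, ‖P.quo (dn fun y => wdg (a y) (b y)) x‖ₑ ∂(P.meas volume) =
        ∫⁻ x in RegT.val ⁻¹' (v '' (O ∩ v ⁻¹' V)),
          ‖P'.quo (dn fun y => wdg (c y) (d y)) x‖ₑ ∂(P'.meas volume) ∧
      (Integrable (P.quo (dn fun y => wdg (a y) (b y))) (P.meas volume) →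
        Integrable (P'.quo (dn fun y => wdg (c y) (d y))) (P'.meas volume) →
        ∫ x in O ∩ v ⁻¹' V, P.quo (dn fun y => wdg (a y) (b y)) x ∂(P.meas volume) =
          ∫ x in RegT.val ⁻¹' (v '' (O ∩ v ⁻¹' V)),
            P'.quo (dn fun y => wdg (c y) (d y)) x ∂(P'.meas volume))) := by
  obtain ⟨y0⟩ := hne
  obtain ⟨h, hh⟩ := exists_lft (X := X) W v y0
  intro P P'
  have hO := hM.emb
  have hOW := hM.sub_wr
  by_cases hYn : Nonempty Y
  swap
  · have hOe : O ∩ v ⁻¹' V = ∅ := by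
      ext w; exact (hYn ⟨w⟩).elim
    rw [hOe]
    simp
  obtain ⟨w0⟩ := hYn
  have hUo : IsOpen (O ∩ v ⁻¹' V) := hO.cont.isOpen_inter_preimage hO.isOpen hV
  set U' : Set (RegT X) := RegT.val ⁻¹' (v '' (O ∩ v ⁻¹' V)) with hU'
  have hU'o : IsOpen U' :=
    (hO.isOpenMap _ inter_subset_left hUo).preimage RegT.continuous_val
  let ψ : RegT X → Y := fun x => hO.inv w0 x.val
  have hψc : ContinuousOn ψ U' := by
    rintro x ⟨w, hw, hwx⟩
    have h1 : ContinuousAt (hO.inv w0) x.val := by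
      rw [← hwx]; exact hO.inv_continuousAt w0 hw.1
    exact (ContinuousAt.comp (f := RegT.val) h1
      RegT.continuous_val.continuousAt).continuousWithinAt
  have hval : ∀ w ∈ O, (h w).val = v w := fun w hw => hh w (hOW hw).1 (hOW hw).2
  have h1 : MapsTo h (O ∩ v ⁻¹' V) U' := fun w hw => by
    show (h w).val ∈ v '' (O ∩ v ⁻¹' V)
    rw [hval w hw.1]; exact ⟨w, hw, rfl⟩
  have h2 : MapsTo ψ U' (O ∩ v ⁻¹' V) := by
    rintro x ⟨w, hw, hwx⟩
    have : ψ x = w := by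
      show hO.inv w0 x.val = w
      rw [← hwx, hO.inv_apply w0 hw.1]
    rw [this]; exact hw
  have h3 : LeftInvOn ψ h (O ∩ v ⁻¹' V) := fun w hw => by
    show hO.inv w0 (h w).val = w
    rw [hval w hw.1, hO.inv_apply w0 hw.1]
  have h4 : RightInvOn ψ h U' := by
    rintro x ⟨w, hw, hwx⟩
    have : ψ x = w := by
      show hO.inv w0 x.val = w
      rw [← hwx, hO.inv_apply w0 hw.1]
    refine RegT.val_injective ?_
    rw [this, hval w hw.1, hwx]
  have hc : ContinuousOn h (O ∩ v ⁻¹' V) := (hM.cont_lft hh).mono fun w hw => hOW hw.1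
  exact int_nat hUo hU'o hc hψc h1 h2 h3 h4 (fun w hw => hM.hol_lft hh w (hOW hw.1)) hM.isOpen
    (fun y hy => ha.smW hb hy) (fun y hy => ha.offW hy)
    (fun r => smAt_wdg (ha.smR r) (hb.smR r)) (fun y hy => XF.rel hM ha hb hh hy.1) P P'

theorem cpt_val {K : Set X.pt} (hK : IsClosed K) (hKr : ∀ x ∈ K, IsReg 4 X x) :
    IsCompact (RegT.val ⁻¹' K : Set (RegT X)) := by
  rw [RegT.isOpenEmbedding_val.isInducing.isCompact_preimage_iff (by
    intro x hx; exact ⟨⟨x, hKr x hx⟩, rfl⟩)]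
  exact hK.isCompact

/-- **integrability of the product of two `X`-forms** -/
theorem XF.intg (hM : PMod X W O v E) (ha : XF X W v E a c) (hb : XF X W v E b d)
    (hne : Nonempty (RegT X)) : Intg fun y => wdg (a y) (b y) := by
  intro P
  letI : MeasurableSpace Y := borel Y
  haveI : BorelSpace Y := ⟨rfl⟩
  letI : MeasurableSpace (RegT X) := borel (RegT X)
  haveI : BorelSpace (RegT X) := ⟨rfl⟩
  haveI : LocallyCompactSpace (RegT X) := ChartedSpace.locallyCompactSpace (Cm 4) (RegT X)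
  have P' : Pou (Cm 4) (RegT X) := (exists_pou (E := Cm 4) (M := RegT X)).some
  obtain ⟨N, hN, hNE, hNa, hNc⟩ := ha.supp
  obtain ⟨V, hV, hKV, hVr⟩ := normal_exists_closure_subset (hN.inter hM.closed)
    (RegT.isOpen_reg X) (fun x hx => hNE x hx.1 hx.2)
  set A : Fm 8 Y := fun y => wdg (a y) (b y) with hA
  have hA1 : ∀ y ∈ W, SmAt A y := fun y hy => ha.smW hb hy
  have hA2 : ∀ y ∉ W, A y = 0 := fun y hy => ha.offW hy
  have hmeas := measurable_dn P hM.isOpen hA1 hA2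
  -- the compact part
  have hK1 : IsCompact (W ∩ v ⁻¹' (N \ V)) := hM.proper _ (hN.sdiff hV) (by
    rw [Set.disjoint_left]
    rintro x ⟨hx, hxV⟩ hxE
    exact hxV (hKV ⟨hx, hxE⟩))
  have i1 : IntegrableOn (P.quo (dn A)) (W ∩ v ⁻¹' (N \ V)) (P.meas volume) :=
    integrableOn_dn P hK1 fun y hy => hA1 y hy.1
  -- the part near `E`
  have i2 : IntegrableOn (P.quo (dn A)) (O ∩ v ⁻¹' V) (P.meas volume) := by
    refine ⟨hmeas.aestronglyMeasurable, ?_⟩
    rw [HasFiniteIntegral, (XF.nat hM ha hb hne hV P P').1]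
    have hcp : IsCompact (RegT.val ⁻¹' (closure V) : Set (RegT X)) :=
      cpt_val isClosed_closure hVr
    have i3 : IntegrableOn (P'.quo (dn fun y => wdg (c y) (d y))) (RegT.val ⁻¹' (closure V))
        (P'.meas volume) :=
      integrableOn_dn P' hcp fun r _ => smAt_wdg (ha.smR r) (hb.smR r)
    refine lt_of_le_of_lt (lintegral_mono_set ?_) i3.2
    rintro r ⟨w, hw, hwr⟩
    show r.val ∈ closure V
    rw [← hwr]
    exact subset_closure hw.2
  -- the null part
  have i4 : IntegrableOn (P.quo (dn A)) (W \ O) (P.meas volume) := by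
    have h1 : P.meas volume (W \ O) = 0 :=
      hM.null.meas P (hM.isOpen.measurableSet.diff hM.emb.isOpen.measurableSet)
    rw [IntegrableOn, Measure.restrict_eq_zero.2 h1]
    exact integrable_zero_measure
  refine (integrableOn_iff_integrable_of_support_subset fun x hx => ?_).1 ((i1.union i2).union i4)
  by_cases hxW : x ∈ W
  swap
  · exact (hx (quo_dn_zero P (hA2 x hxW))).elim
  by_cases hxN : v x ∈ N
  swap
  · refine (hx (quo_dn_zero P ?_)).elim
    show wdg (a x) (b x) = 0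
    rw [hNa x hxW hxN, H619.wdg_zero_left]
  by_cases hxV : v x ∈ V
  · by_cases hxO : x ∈ O
    · exact Or.inl (Or.inr ⟨hxO, hxV⟩)
    · exact Or.inr ⟨hxW, hxO⟩
  · exact Or.inl (Or.inl ⟨hxW, hxN, hxV⟩)

/-- `x = y + z` -/
def AddRel {E : Type} [NormedAddCommGroup E] [NormedSpace ℝ E] {n : ℕ}
    (x y z : E [⋀^Fin n]→L[ℝ] ℝ) : Prop := x = y + z

theorem wdg_addRel {E : Type} [NormedAddCommGroup E] [NormedSpace ℝ E] {p q : ℕ}
    (a a' : E [⋀^Fin p]→L[ℝ] ℝ) (b : E [⋀^Fin q]→L[ℝ] ℝ) :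
    AddRel (wdg (a + a') b) (wdg a b) (wdg a' b) := H619.wdg_add_left a a' b

/-- additivity of the integral, with variables -/
theorem intM_addRel' {M : Type} [TopologicalSpace M] [T2Space M] [SecondCountableTopology M]
    [ChartedSpace (Cm 4) M] [IsManifold 𝓘(ℂ, Cm 4) ω M] {F G H : Fm 8 M}
    (h : ∀ y, AddRel (F y) (G y) (H y)) (hG : Intg G) (hH : Intg H) :
    intM M F = intM M G + intM M H := by
  have e : F = G + H := funext h
  rw [e]
  exact intM_add' hG hH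

theorem XF.pr_add {a' : Fm 4 Y} {c' : Fm 4 (RegT X)} (hM : PMod X W O v E)
    (ha : XF X W v E a c) (ha' : XF X W v E a' c') (hb : XF X W v E b d)
    (hne : Nonempty (RegT X)) : pr Y (a + a') b = pr Y a b + pr Y a' b := by
  rw [pr, pr, pr]
  exact intM_addRel' (fun y => wdg_addRel (a y) (a' y) (b y)) (XF.intg hM ha hb hne)
    (XF.intg hM ha' hb hne)

/-- the integral over `Y` is the integral over the regular locus -/
theorem XF.pr_eq (hM : PMod X W O v E) (ha : XF X W v E a c) (hb : XF X W v E b d)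
    (hne : Nonempty (RegT X)) (hi : Intg fun r => wdg (c r) (d r)) :
    pr Y a b = pr (RegT X) c d := by
  letI : MeasurableSpace Y := borel Y
  haveI : BorelSpace Y := ⟨rfl⟩
  letI : MeasurableSpace (RegT X) := borel (RegT X)
  haveI : BorelSpace (RegT X) := ⟨rfl⟩
  obtain ⟨P, hP⟩ := intM_eq Y
  obtain ⟨P', hP'⟩ := intM_eq (RegT X)
  have h1 := (XF.nat hM ha hb hne isOpen_univ P P').2 (XF.intg hM ha hb hne P) (hi P')
  have e1 : O ∩ v ⁻¹' univ = O := by simp
  rw [e1] at h1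
  rw [pr, pr, hP, hP']
  have h2 : ∫ x in O, P.quo (dn fun y => wdg (a y) (b y)) x ∂(P.meas volume) =
      ∫ x, P.quo (dn fun y => wdg (a y) (b y)) x ∂(P.meas volume) := by
    refine setIntegral_eq_integral_of_ae_compl_eq_zero ?_
    have h3 : P.meas volume (W \ O) = 0 :=
      hM.null.meas P (hM.isOpen.measurableSet.diff hM.emb.isOpen.measurableSet)
    rw [ae_iff]
    refine measure_mono_null (fun x hx => ?_) h3
    have hx' : ¬ (x ∉ O → P.quo (dn fun y => wdg (a y) (b y)) x = 0) := hx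
    push Not at hx'
    refine ⟨?_, hx'.1⟩
    by_contra hxW
    exact hx'.2 (quo_dn_zero P (ha.offW hxW))
  have h4 : ∫ x in RegT.val ⁻¹' (v '' O), P'.quo (dn fun y => wdg (c y) (d y)) x
      ∂(P'.meas volume) = ∫ x, P'.quo (dn fun y => wdg (c y) (d y)) x ∂(P'.meas volume) := by
    refine setIntegral_eq_integral_of_ae_compl_eq_zero ?_
    have h5 : Null (RegT X) (RegT.val ⁻¹' (v '' O)ᶜ) := null_of_dimLe hM.codim
    have h6 : P'.meas volume (RegT.val ⁻¹' (v '' O)ᶜ) = 0 :=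
      h5.meas P' (hM.emb.isOpen_image.isClosed_compl.preimage RegT.continuous_val).measurableSet
    rw [ae_iff]
    refine measure_mono_null (fun x hx => ?_) h6
    have hx' : ¬ (x ∉ RegT.val ⁻¹' (v '' O) → P'.quo (dn fun y => wdg (c y) (d y)) x = 0) := hx
    push Not at hx'
    exact hx'.1
  exact h2.symm.trans (h1.trans h4)

/-- exact forms -/
theorem XF.exact (hM : PMod X W O v E) {h : Y → RegT X} (hh : IsLft X W v h) {γ : Fm 3 (RegT X)}
    (hγ : SC γ) : XF X W v E (pz (WR X W v) h (dF γ)) (dF γ) := by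
  classical
  obtain ⟨C, hC, hC0⟩ := hγ.cpt
  have hsm : ∀ r, SmAt (dF γ) r := fun y => smAt_dF isOpen_univ (fun x _ => hγ.sm x) (mem_univ y)
  have hcl : ∀ r, dF (dF γ) r = 0 := fun y => dF_dF isOpen_univ (fun x _ => hγ.sm x) (mem_univ y)
  have hd0 := dF_zero_of hC hC0
  have hCc : IsClosed (RegT.val '' C) := (hC.image RegT.continuous_val).isClosed
  have hoff : ∀ y ∈ W, v y ∉ RegT.val '' C → pz (WR X W v) h (dF γ) y = 0 := by
    intro y hy hyC
    by_cases hyR : y ∈ WR X W v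
    · simp only [pz, if_pos hyR, pb]
      rw [hd0 (h y) fun hc => hyC ⟨h y, hc, hh y hyR.1 hyR.2⟩]
      rfl
    · simp only [pz, if_neg hyR]
  have hev : ∀ y ∈ WR X W v, pz (WR X W v) h (dF γ) =ᶠ[𝓝 y] pb h (dF γ) := by
    intro x hx
    filter_upwards [hM.isOpen_wr.mem_nhds hx] with y hy
    simp only [pz, if_pos hy]
  have hev0 : ∀ y ∈ W, y ∉ WR X W v → pz (WR X W v) h (dF γ) =ᶠ[𝓝 y] 0 := by
    intro x hx hxR
    have h1 : v x ∉ RegT.val '' C := by
      rintro ⟨r, -, hr⟩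
      exact hxR ⟨hx, by rw [← hr]; exact r.2⟩
    filter_upwards [(hM.isOpen_pre hCc.isOpen_compl).mem_nhds ⟨hx, h1⟩] with y hy
    exact hoff y hy.1 hy.2
  have hFe : ∀ x ∈ WR X W v, ∀ᶠ y in 𝓝 x, SmM (Cm 4) h y := fun x hx => by
    filter_upwards [hM.isOpen_wr.mem_nhds hx] with y hy using hM.smM_lft hh y hy
  refine ⟨fun y hy => ?_, fun y hy => ?_, fun y hy => ?_, hsm, hcl, ?_, ?_⟩
  · by_cases hyR : y ∈ WR X W v
    · exact (smAt_pb (hFe y hyR) (hsm _)).congr (hev y hyR)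
    · exact (smAt_zero y).congr (hev0 y hy hyR)
  · by_cases hyR : y ∈ WR X W v
    · rw [dF_congr (hev y hyR), dF_pb (hFe y hyR) (hsm _), pb, hcl]
      rfl
    · rw [dF_congr (hev0 y hy hyR)]
      exact dF_zero_fun y
  · have h1 : y ∉ WR X W v := fun h => hy h.1
    simp only [pz, if_neg h1]
  · intro g hg y hy hr
    have h1 : y ∈ WR X W v := ⟨hy, hr⟩
    simp only [pz, if_pos h1]
    exact pb_congr_map (hM.lft_congr hh hg h1)
  · refine ⟨RegT.val '' C, hCc, ?_, hoff, fun r hr => hd0 r fun hc => hr ⟨r, hc, rfl⟩⟩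
    rintro _ ⟨r, -, rfl⟩ -
    exact r.2

/-- **Stokes** -/
theorem XF.stokes (hM : PMod X W O v E) {h : Y → RegT X} (hh : IsLft X W v h)
    {γ : Fm 3 (RegT X)} (hγ : SC γ) (hb : XF X W v E b d) (hne : Nonempty (RegT X)) :
    pr Y (pz (WR X W v) h (dF γ)) b = 0 := by
  obtain ⟨C, hC, hC0⟩ := hγ.cpt
  have hd0 := dF_zero_of hC hC0
  have hsm : ∀ r, SmAt (dF γ) r := fun y => smAt_dF isOpen_univ (fun x _ => hγ.sm x) (mem_univ y)
  rw [XF.pr_eq hM (XF.exact hM hh hγ) hb hne]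
  · exact (stPair (RegT X)).stokes γ d C hC hγ.sm (fun y => ⟨hb.smR y, hb.clR y⟩) (Or.inl hC0)
  · refine intg_of_cpt hC (fun r => smAt_wdg (hsm r) (hb.smR r)) fun r hr => ?_
    show wdg (dF γ r) (d r) = 0
    rw [hd0 r hr, H619.wdg_zero_left]

/-- the form is nonnegative on the frame -/
def NNAt {M : Type} [TopologicalSpace M] [ChartedSpace (Cm 4) M] {k : ℕ} (A : Fm k M)
    (B : Fin k → Cm 4) : Prop :=
  ∀ y, ∀ e ∈ atlas (Cm 4) M, y ∈ e.source → 0 ≤ loc e A (e y) B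

/-- the form does not vanish on the frame at the point -/
def NZAt {M : Type} [TopologicalSpace M] [ChartedSpace (Cm 4) M] {k : ℕ} (A : Fm k M)
    (B : Fin k → Cm 4) (e : OpenPartialHomeomorph M (Cm 4)) (y : M) : Prop :=
  loc e A (e y) B ≠ 0

theorem intM_posRel {M : Type} [TopologicalSpace M] [T2Space M] [SecondCountableTopology M]
    [ChartedSpace (Cm 4) M] [IsManifold 𝓘(ℂ, Cm 4) ω M] {A : Fm 8 M} (hA : Intg A)
    (hn : NNAt A stdB) {y₁ : M} (hs : SmAt A y₁) {e₁ : OpenPartialHomeomorph M (Cm 4)}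
    (he₁ : e₁ ∈ atlas (Cm 4) M) (hy₁ : y₁ ∈ e₁.source) (h1 : NZAt A stdB e₁ y₁) : 0 < intM M A :=
  intM_pos' hA hn hs he₁ hy₁ h1

/-- positivity -/
theorem XF.pr_pos (hM : PMod X W O v E) (ha : XF X W v E a c) (hb : XF X W v E b d)
    (hne : Nonempty (RegT X))
    (hn : ∀ y, ∀ e ∈ atlas (Cm 4) Y, y ∈ e.source →
      0 ≤ loc e (fun y => wdg (a y) (b y)) (e y) stdB) {y₁ : Y} (hy₁ : y₁ ∈ W)
    {e₁ : OpenPartialHomeomorph Y (Cm 4)} (he₁ : e₁ ∈ atlas (Cm 4) Y) (hye₁ : y₁ ∈ e₁.source)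
    (h1 : loc e₁ (fun y => wdg (a y) (b y)) (e₁ y₁) stdB ≠ 0) : 0 < pr Y a b := by
  have hn' : NNAt (fun y => wdg (a y) (b y)) stdB := hn
  have h1' : NZAt (fun y => wdg (a y) (b y)) stdB e₁ y₁ := h1
  rw [pr]
  exact intM_posRel (XF.intg hM ha hb hne) hn' (ha.smW hb hy₁) he₁ hye₁ h1'

/-- `X`-forms which vanish near `E` have compact support -/
theorem XF.ccf (hM : PMod X W O v E) (ha : XF X W v E a c) {N : Set X.pt} (hN : IsClosed N)
    (hNE : Disjoint N E) (h0 : ∀ y ∈ W, v y ∉ N → a y = 0) : CCF W a := by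
  have hK := hM.proper N hN hNE
  have hz : ∀ y ∉ W ∩ v ⁻¹' N, a y = 0 := by
    intro y hy
    by_cases hyW : y ∈ W
    · exact h0 y hyW fun h => hy ⟨hyW, h⟩
    · exact ha.off y hyW
  have hev : ∀ y ∉ W, a =ᶠ[𝓝 y] 0 := by
    intro y hy
    filter_upwards [hK.isClosed.isOpen_compl.mem_nhds fun h => hy h.1] with z hz'
    exact hz z hz'
  refine ⟨fun y => ?_, fun y => ?_, W ∩ v ⁻¹' N, inter_subset_left, hK, hz⟩
  · by_cases hy : y ∈ W
    · exact ha.sm y hy
    · exact (smAt_zero y).congr (hev y hy)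
  · by_cases hy : y ∈ W
    · exact ha.cl y hy
    · rw [dF_congr (hev y hy)]
      exact dF_zero_fun y

end int

end Vale.Agent.P277.H371.C
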